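/-
Row 258, block [COLOR].  Averaging over a finite probability space ("integrate the pathwise failure probability over R").
(localization.tex l.372-378.)   Proved (helper63).
-/
import Claimed.Agent.R258.Pack002

set_option autoImplicit false
open Classical

namespace Claimed.Agent.R258

/-- if every leaf is bad with probability `≤ κ`, some outcome has bad leaves of total weight `≤ κ ∑ μ` -/
theorem col_avg_leaves {Ω C : Type*} (leaves : Finset C) (μ : C → ℝ) (hμ : ∀ L ∈ leaves, 0 ≤ μ L)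
    (Om : Finset Ω) (wt : Ω → ℝ) (hwt : ∀ ω ∈ Om, 0 ≤ wt ω) (hsum : ∑ ω ∈ Om, wt ω = 1)
    (bad : Ω → C → Prop) (κ : ℝ)
    (hκ : ∀ L ∈ leaves, ∑ ω ∈ Om.filter (fun ω => bad ω L), wt ω ≤ κ) :
    ∃ ω ∈ Om, ∑ L ∈ leaves.filter (fun L => bad ω L), μ L ≤ κ * ∑ L ∈ leaves, μ L := by
  by_contra hcon
  push Not at hcon
  have hne : Om.Nonempty := by
    rcases Om.eq_empty_or_nonempty with h | h
    · rw [h] at hsum; simp at hsum
    · exact h
  -- weighted average of the bad weight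
  have h1 : ∑ ω ∈ Om, wt ω * ∑ L ∈ leaves.filter (fun L => bad ω L), μ L ≤ κ * ∑ L ∈ leaves, μ L := by
    calc ∑ ω ∈ Om, wt ω * ∑ L ∈ leaves.filter (fun L => bad ω L), μ L
        = ∑ ω ∈ Om, ∑ L ∈ leaves, (if bad ω L then wt ω * μ L else 0) := by
          refine Finset.sum_congr rfl (fun ω _ => ?_)
          rw [Finset.mul_sum, Finset.sum_filter]
      _ = ∑ L ∈ leaves, ∑ ω ∈ Om, (if bad ω L then wt ω * μ L else 0) := Finset.sum_comm
      _ = ∑ L ∈ leaves, (∑ ω ∈ Om.filter (fun ω => bad ω L), wt ω) * μ L := by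
          refine Finset.sum_congr rfl (fun L _ => ?_)
          rw [Finset.sum_mul, Finset.sum_filter]
      _ ≤ ∑ L ∈ leaves, κ * μ L :=
          Finset.sum_le_sum (fun L hL => mul_le_mul_of_nonneg_right (hκ L hL) (hμ L hL))
      _ = κ * ∑ L ∈ leaves, μ L := by rw [Finset.mul_sum]
  have h2 : κ * ∑ L ∈ leaves, μ L < ∑ ω ∈ Om, wt ω * ∑ L ∈ leaves.filter (fun L => bad ω L), μ L := by
    have hpos : ∃ ω ∈ Om, 0 < wt ω := by
      by_contra hno
      push Not at hno
      have : ∑ ω ∈ Om, wt ω ≤ 0 := Finset.sum_nonpos hno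
      linarith
    calc κ * ∑ L ∈ leaves, μ L = ∑ ω ∈ Om, wt ω * (κ * ∑ L ∈ leaves, μ L) := by
          rw [← Finset.sum_mul, hsum, one_mul]
      _ < ∑ ω ∈ Om, wt ω * ∑ L ∈ leaves.filter (fun L => bad ω L), μ L := by
          apply Finset.sum_lt_sum
          · intro ω hω
            exact mul_le_mul_of_nonneg_left (hcon ω hω).le (hwt ω hω)
          · obtain ⟨ω, hω, hp⟩ := hpos
            exact ⟨ω, hω, mul_lt_mul_of_pos_left (hcon ω hω) hp⟩
  linarith

/-- union bound for weighted finite sums -/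
theorem col_union_bound {Ω ι : Type*} (Om : Finset Ω) (wt : Ω → ℝ) (hwt : ∀ ω ∈ Om, 0 ≤ wt ω) (F : Finset ι)
    (E : ι → Ω → Prop) (κ : ℝ) (hE : ∀ i ∈ F, ∑ ω ∈ Om.filter (E i), wt ω ≤ κ) :
    ∑ ω ∈ Om.filter (fun ω => ∃ i ∈ F, E i ω), wt ω ≤ F.card * κ := by
  induction F using Finset.induction_on with
  | empty => simp
  | insert a F ha ih =>
    have ih' := ih (fun i hi => hE i (Finset.mem_insert_of_mem hi))
    have ha' := hE a (Finset.mem_insert_self a F)
    have hsub : Om.filter (fun ω => ∃ i ∈ insert a F, E i ω)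
        ⊆ Om.filter (E a) ∪ Om.filter (fun ω => ∃ i ∈ F, E i ω) := by
      intro ω hω
      rw [Finset.mem_filter] at hω
      obtain ⟨hωO, i, hi, hEi⟩ := hω
      rw [Finset.mem_union, Finset.mem_filter, Finset.mem_filter]
      rcases Finset.mem_insert.mp hi with rfl | hi'
      · exact Or.inl ⟨hωO, hEi⟩
      · exact Or.inr ⟨hωO, i, hi', hEi⟩
    have hnn : ∀ ω ∈ Om.filter (E a) ∪ Om.filter (fun ω => ∃ i ∈ F, E i ω), 0 ≤ wt ω := by
      intro ω hω
      rcases Finset.mem_union.mp hω with h | h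
      · exact hwt ω (Finset.mem_filter.mp h).1
      · exact hwt ω (Finset.mem_filter.mp h).1
    calc ∑ ω ∈ Om.filter (fun ω => ∃ i ∈ insert a F, E i ω), wt ω
        ≤ ∑ ω ∈ Om.filter (E a) ∪ Om.filter (fun ω => ∃ i ∈ F, E i ω), wt ω :=
          Finset.sum_le_sum_of_subset_of_nonneg hsub (fun ω hω _ => hnn ω hω)
      _ ≤ ∑ ω ∈ Om.filter (E a), wt ω + ∑ ω ∈ Om.filter (fun ω => ∃ i ∈ F, E i ω), wt ω := by
          rw [← Finset.sum_union_inter]
          have : 0 ≤ ∑ ω ∈ Om.filter (E a) ∩ Om.filter (fun ω => ∃ i ∈ F, E i ω), wt ω :=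
            Finset.sum_nonneg (fun ω hω => hwt ω (Finset.mem_filter.mp (Finset.mem_inter.mp hω).1).1)
          linarith
      _ ≤ κ + F.card * κ := add_le_add ha' ih'
      _ = ((insert a F).card : ℝ) * κ := by
          rw [Finset.card_insert_of_notMem ha]
          push_cast
          ring

end Claimed.Agent.R258
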