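/-
Row 258, block [COLOR].  LEAF P-COL-PROB2: independent rounds; the finite probability space of delay arrays.  Uses Prob.lean as a black box.
`col_rounds_prob`: `∑_{δ} ∏_r [¬ mk (δ r)] w1 (δ r) = ∏_r ∑_{x ∈ Om1} [¬ mk x] w1 x = (1 - P(mk))^d0 ≤ (63/64)^d0`
  (`Finset.prod_univ_sum` backwards with `f r x = if col_mk Z x q then 0 else col_w1 d0 x`; `Finset.sum_filter`; `col_w1_sum`, `col_mark_prob`; `Finset.prod_const`, `Finset.card_fin`).
`col_prob_space`: `ι = {v // v ∈ verts}`; extension `E δ r v = if h : r < d0 ∧ v ∈ verts then δ ⟨r, h.1⟩ ⟨v, h.2⟩ else 0` is injective; `Om = image E (piFinset ..)`,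
  `wt x = ∏ r ∈ range d0, ∏ v ∈ verts, col_gam d0 (x r v)` (`Finset.prod_range`/`Fin.prod_univ_eq_prod_range`, `Finset.prod_attach`/`Finset.prod_coe_sort`), sums over `Om` by `Finset.sum_image`;
  total mass `1` by `Finset.prod_univ_sum` + `col_w1_sum`;
  `col_mk Z (E δ r) q ↔ col_mk (Z.subtype (· ∈ verts)) (δ ⟨r,_⟩) (q ∘ Subtype.val)` for `Z ⊆ verts` (`Finset.mem_subtype`, `Finset.card_subtype`, `Finset.filter_true_of_mem`).
-/
import Claimed.Agent.R258.Color.Prob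

set_option autoImplicit false
open Classical

namespace Claimed.Agent.R258

section Rounds
variable {ι : Type*} [Fintype ι]

theorem col_mem_Om1 {d0 : ℕ} {δ : ι → ℕ} : δ ∈ col_Om1 ι d0 ↔ ∀ i, δ i ≤ d0 := by
  unfold col_Om1
  rw [Fintype.mem_piFinset]
  simp only [Finset.mem_range, Nat.lt_succ_iff]

theorem col_round_fail {d0 D : ℕ} (h64 : 64 * D ≤ 2 ^ d0) (Z : Finset ι) (q : ι → ℕ) (hZ : Z.card ≤ D)
    (hc : ∃ c ∈ Z, q c = 0) :
    ∑ x ∈ col_Om1 ι d0, (if col_mk Z x q then 0 else col_w1 d0 x) ≤ (63 / 64 : ℝ) := by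
  have h1 := col_mark_prob h64 Z q hZ hc
  have h2 := col_w1_sum (ι := ι) d0
  have h3 := Finset.sum_filter_add_sum_filter_not (col_Om1 ι d0) (fun δ => col_mk Z δ q) (col_w1 d0)
  have h4 : ∑ x ∈ col_Om1 ι d0, (if col_mk Z x q then 0 else col_w1 d0 x)
      = ∑ x ∈ (col_Om1 ι d0).filter (fun δ => ¬ col_mk Z δ q), col_w1 d0 x := by
    rw [Finset.sum_filter]
    apply Finset.sum_congr rfl
    intro x _
    by_cases h : col_mk Z x q <;> simp [h]
  rw [h4]
  linarith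

/-- all `d0` independent rounds fail with probability `≤ (63/64)^d0` -/
theorem col_rounds_prob {d0 D : ℕ} (h64 : 64 * D ≤ 2 ^ d0) (Z : Finset ι) (q : ι → ℕ) (hZ : Z.card ≤ D)
    (hc : ∃ c ∈ Z, q c = 0) :
    ∑ δ ∈ (Fintype.piFinset fun _ : Fin d0 => col_Om1 ι d0).filter (fun δ => ∀ r, ¬ col_mk Z (δ r) q),
      ∏ r, col_w1 d0 (δ r) ≤ (63 / 64 : ℝ) ^ d0 := by
  have hone := col_round_fail h64 Z q hZ hc
  have hnn : ∀ x : ι → ℕ, (0 : ℝ) ≤ (if col_mk Z x q then 0 else col_w1 d0 x) := by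
    intro x
    split_ifs
    · exact le_rfl
    · exact col_w1_nonneg d0 x
  calc ∑ δ ∈ (Fintype.piFinset fun _ : Fin d0 => col_Om1 ι d0).filter (fun δ => ∀ r, ¬ col_mk Z (δ r) q),
        ∏ r, col_w1 d0 (δ r)
      = ∑ δ ∈ (Fintype.piFinset fun _ : Fin d0 => col_Om1 ι d0),
          ∏ r, (if col_mk Z (δ r) q then 0 else col_w1 d0 (δ r)) := by
        rw [Finset.sum_filter]
        apply Finset.sum_congr rfl
        intro δ _
        by_cases h : ∀ r, ¬ col_mk Z (δ r) q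
        · rw [if_pos h]
          apply Finset.prod_congr rfl
          intro r _
          rw [if_neg (h r)]
        · rw [if_neg h]
          push Not at h
          obtain ⟨r, hr⟩ := h
          symm
          apply Finset.prod_eq_zero (Finset.mem_univ r)
          rw [if_pos hr]
    _ = ∏ _r : Fin d0, ∑ x ∈ col_Om1 ι d0, (if col_mk Z x q then 0 else col_w1 d0 x) :=
        (Finset.prod_univ_sum (fun _ : Fin d0 => col_Om1 ι d0)
          (fun _ x => (if col_mk Z x q then 0 else col_w1 d0 x))).symm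
    _ ≤ ∏ _r : Fin d0, (63 / 64 : ℝ) :=
        Finset.prod_le_prod (fun _ _ => Finset.sum_nonneg (fun x _ => hnn x)) (fun _ _ => hone)
    _ = (63 / 64 : ℝ) ^ d0 := by rw [Finset.prod_const, Finset.card_univ, Fintype.card_fin]

theorem col_rounds_sum (d0 : ℕ) :
    ∑ δ ∈ (Fintype.piFinset fun _ : Fin d0 => col_Om1 ι d0), ∏ r, col_w1 d0 (δ r) = 1 := by
  rw [← Finset.prod_univ_sum (fun _ : Fin d0 => col_Om1 ι d0) (fun _ x => col_w1 d0 x)]
  simp [col_w1_sum]

end Rounds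

section Space
variable {V : Type*}

/-- extension of a delay array on `Fin d0 × verts` by `0` -/
noncomputable def col_ext (verts : Finset V) (d0 : ℕ) (δ : Fin d0 → {v // v ∈ verts} → ℕ) : ℕ → V → ℕ :=
  fun r v => if h : r < d0 ∧ v ∈ verts then δ ⟨r, h.1⟩ ⟨v, h.2⟩ else 0

/-- restriction of a delay array -/
def col_res (verts : Finset V) (d0 : ℕ) (x : ℕ → V → ℕ) : Fin d0 → {v // v ∈ verts} → ℕ :=
  fun r i => x r.1 i.1

theorem col_res_ext (verts : Finset V) (d0 : ℕ) (δ : Fin d0 → {v // v ∈ verts} → ℕ) :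
    col_res verts d0 (col_ext verts d0 δ) = δ := by
  funext r i
  unfold col_res col_ext
  rw [dif_pos ⟨r.2, i.2⟩]

theorem col_ext_inj (verts : Finset V) (d0 : ℕ) : Function.Injective (col_ext verts d0) :=
  Function.LeftInverse.injective (col_res_ext verts d0)

theorem col_mk_subtype {verts Z : Finset V} (hZ : Z ⊆ verts) (x q : V → ℕ) :
    col_mk Z x q ↔ col_mk (Z.subtype (· ∈ verts)) (fun i => x i.1) (fun i => q i.1) := by
  constructor
  · rintro ⟨z, g, hz, h1, h2⟩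
    exact ⟨⟨z, hZ hz⟩, g, Finset.mem_subtype.mpr hz, h1,
      fun w hw hne => h2 w.1 (Finset.mem_subtype.mp hw) (fun h => hne (Subtype.ext h))⟩
  · rintro ⟨z, g, hz, h1, h2⟩
    exact ⟨z.1, g, Finset.mem_subtype.mp hz, h1,
      fun w hw hne => h2 ⟨w, hZ hw⟩ (Finset.mem_subtype.mpr hw) (fun h => hne (congrArg Subtype.val h))⟩

theorem col_mk_ext {verts Z : Finset V} (hZ : Z ⊆ verts) {d0 : ℕ} (δ : Fin d0 → {v // v ∈ verts} → ℕ)
    (q : V → ℕ) (r : Fin d0) :
    col_mk Z (col_ext verts d0 δ r.1) q ↔ col_mk (Z.subtype (· ∈ verts)) (δ r) (fun i => q i.1) := by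
  rw [col_mk_subtype hZ]
  have : (fun i : {v // v ∈ verts} => col_ext verts d0 δ r.1 i.1) = δ r :=
    congrFun (col_res_ext verts d0 δ) r
  rw [this]

end Space

/-- THE EXPORT: a finite probability space of delay arrays. -/
theorem col_prob_space {V : Type*} (verts : Finset V) {d0 D : ℕ} (h64 : 64 * D ≤ 2 ^ d0) :
    ∃ (Om : Finset (ℕ → V → ℕ)) (wt : (ℕ → V → ℕ) → ℝ),
      (∀ δ ∈ Om, 0 ≤ wt δ) ∧ ∑ δ ∈ Om, wt δ = 1 ∧ (∀ δ ∈ Om, ∀ r v, δ r v ≤ d0) ∧
      ∀ (Z : Finset V) (q : V → ℕ), Z ⊆ verts → Z.card ≤ D → (∃ c ∈ Z, q c = 0) →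
        ∑ δ ∈ Om.filter (fun δ => ∀ r < d0, ¬ col_mk Z (δ r) q), wt δ ≤ (63 / 64 : ℝ) ^ d0 := by
  have hwE : ∀ δ : Fin d0 → {v // v ∈ verts} → ℕ,
      (∏ r, col_w1 d0 (col_res verts d0 (col_ext verts d0 δ) r)) = ∏ r, col_w1 d0 (δ r) := by
    intro δ
    rw [col_res_ext]
  refine ⟨(Fintype.piFinset fun _ : Fin d0 => col_Om1 {v // v ∈ verts} d0).image (col_ext verts d0),
    fun x => ∏ r, col_w1 d0 (col_res verts d0 x r), ?_, ?_, ?_, ?_⟩
  · intro δ _
    exact Finset.prod_nonneg (fun r _ => col_w1_nonneg d0 _)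
  · rw [Finset.sum_image (fun a _ b _ h => col_ext_inj verts d0 h)]
    simp only [hwE]
    exact col_rounds_sum d0
  · intro x hx r v
    obtain ⟨δ, hδ, rfl⟩ := Finset.mem_image.mp hx
    unfold col_ext
    split_ifs with h
    · have h1 := Fintype.mem_piFinset.mp hδ ⟨r, h.1⟩
      exact col_mem_Om1.mp h1 ⟨v, h.2⟩
    · exact Nat.zero_le _
  · intro Z q hZ hcard hc
    obtain ⟨c, hcZ, hqc⟩ := hc
    have hmain := col_rounds_prob (ι := {v // v ∈ verts}) h64 (Z.subtype (· ∈ verts)) (fun i => q i.1)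
      (by
        rw [Finset.card_subtype]
        exact le_trans (Finset.card_filter_le _ _) hcard)
      ⟨⟨c, hZ hcZ⟩, Finset.mem_subtype.mpr hcZ, hqc⟩
    have hset : ((Fintype.piFinset fun _ : Fin d0 => col_Om1 {v // v ∈ verts} d0).image (col_ext verts d0)).filter
          (fun δ => ∀ r < d0, ¬ col_mk Z (δ r) q)
        = ((Fintype.piFinset fun _ : Fin d0 => col_Om1 {v // v ∈ verts} d0).filter
          (fun δ => ∀ r, ¬ col_mk (Z.subtype (· ∈ verts)) (δ r) (fun i => q i.1))).image (col_ext verts d0) := by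
      ext x
      simp only [Finset.mem_filter, Finset.mem_image]
      constructor
      · rintro ⟨⟨δ, hδ, rfl⟩, h⟩
        exact ⟨δ, ⟨hδ, fun r hr => h r.1 r.2 ((col_mk_ext hZ δ q r).mpr hr)⟩, rfl⟩
      · rintro ⟨δ, ⟨hδ, h⟩, rfl⟩
        exact ⟨⟨δ, hδ, rfl⟩, fun r hr hm => h ⟨r, hr⟩ ((col_mk_ext hZ δ q ⟨r, hr⟩).mp hm)⟩
    rw [hset, Finset.sum_image (fun a _ b _ h => col_ext_inj verts d0 h)]
    simp only [hwE]
    exact hmain

end Claimed.Agent.R258
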