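/-
Row 258, block [COLOR].  LEAF P-COL-CHOOSE (`col_choose`): union bound over the situations of a path and choice of one family of arrays.
(localization.tex l.357-378.)  (proved: helper63)
A SITUATION is a pair `σ = (Z, q)`; only `q` on `Z` matters (`col_mk_congr`).
`col_choose`: let `verts = leaves.biUnion S.pres` (so `pres I' ⊆ pres L ⊆ verts` for `L ∈ leaves`, `L ≤ I'`); take `(Om, wt)` from `col_prob_space verts h64`; apply `col_avg_leaves` with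
  `bad δ L := ∃ I', L ≤ I' ∧ S.BadAt d0 q δ I'`, `κ = N (63/64)^d0`.  For `L ∈ leaves` let `F` be given by `hN`, and
  `F' = F.filter (fun σ => σ.1 ⊆ verts ∧ σ.1.card ≤ D ∧ ∃ c ∈ σ.1, σ.2 c = 0)`.  If `BadAt δ I'` for some `I' ≥ L`, with `v ∈ pres I'`, the `σ ∈ F` belonging to `(I', v)` lies in `F'`
  (`card_le`, centre `v` by `hq0`) and all rounds fail for `σ` (`col_mk_congr`).  Union bound:
  `∑_{δ ∈ Om, ∃ σ ∈ F', fail σ δ} wt δ ≤ ∑_{σ ∈ F'} ∑_{δ ∈ Om, fail σ δ} wt δ ≤ card F' (63/64)^d0`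
  (write the left side with indicators, `1_{∃ σ ∈ F', ..} ≤ ∑_{σ ∈ F'} 1_{..}`, `Finset.sum_comm`; or induction on `F'`).
-/
import Claimed.Agent.R258.Color.Prob2
import Claimed.Agent.R258.Color.Avg

set_option autoImplicit false
open Classical

namespace Claimed.Agent.R258
variable {C V : Type*} [PartialOrder C]

/-- for the offsets `q I v`, all `d0` rounds of the array `δ` fail at some central vertex of `I` -/
def ColSys.BadAt (S : ColSys C V) (d0 : ℕ) (q : C → V → V → ℕ) (δ : ℕ → V → ℕ) (I : C) : Prop :=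
  ∃ v ∈ S.pres I, ∀ r < d0, ¬ col_mk (S.pres I) (δ r) (q I v)

/-- the situations `(pres I', q I' v)`, `I' ≥ I`, `v ∈ pres I'`, are covered by `N` situations -/
def ColSys.SitBound (S : ColSys C V) (q : C → V → V → ℕ) (N : ℕ) (I : C) : Prop :=
  ∃ F : Finset (Finset V × (V → ℕ)), F.card ≤ N ∧
    ∀ I', I ≤ I' → ∀ v ∈ S.pres I', ∃ σ ∈ F, σ.1 = S.pres I' ∧ ∀ w ∈ S.pres I', σ.2 w = q I' v w

theorem col_choose {S : ColSys C V} {D : ℕ} (hS : S.Valid D)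
    (leaves : Finset C) (μ : C → ℝ) (hμ : ∀ L ∈ leaves, 0 ≤ μ L) {d0 : ℕ} (h64 : 64 * D ≤ 2 ^ d0) (N : ℕ)
    (q : C → V → V → ℕ) (hq0 : ∀ I v, q I v v = 0) (hN : ∀ L ∈ leaves, S.SitBound q N L) :
    ∃ δ : ℕ → V → ℕ, (∀ r v, δ r v ≤ d0) ∧
      ∑ L ∈ leaves.filter (fun L => ∃ I', L ≤ I' ∧ S.BadAt d0 q δ I'), μ L
        ≤ N * (63 / 64 : ℝ) ^ d0 * ∑ L ∈ leaves, μ L := by
  obtain ⟨Om, wt, hwt, hsum, hle, hfail⟩ := col_prob_space (leaves.biUnion S.pres) h64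
  have hκ0 : (0 : ℝ) ≤ (63 / 64 : ℝ) ^ d0 := by positivity
  have key : ∀ L ∈ leaves, ∑ δ ∈ Om.filter (fun δ => ∃ I', L ≤ I' ∧ S.BadAt d0 q δ I'), wt δ
      ≤ N * (63 / 64 : ℝ) ^ d0 := by
    intro L hL
    obtain ⟨F, hF, hcov⟩ := hN L hL
    set F' := F.filter (fun σ => σ.1 ⊆ leaves.biUnion S.pres ∧ σ.1.card ≤ D ∧ ∃ c ∈ σ.1, σ.2 c = 0) with hF'
    have hub := col_union_bound Om wt hwt F' (fun σ δ => ∀ r < d0, ¬ col_mk σ.1 (δ r) σ.2) ((63 / 64 : ℝ) ^ d0)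
      (by
        intro σ hσ
        rw [hF', Finset.mem_filter] at hσ
        convert hfail σ.1 σ.2 hσ.2.1 hσ.2.2.1 hσ.2.2.2)
    have hsub : Om.filter (fun δ => ∃ I', L ≤ I' ∧ S.BadAt d0 q δ I')
        ⊆ Om.filter (fun δ => ∃ σ ∈ F', ∀ r < d0, ¬ col_mk σ.1 (δ r) σ.2) := by
      intro δ hδ
      rw [Finset.mem_filter] at hδ ⊢
      obtain ⟨hδO, I', hLI, v, hv, hbad⟩ := hδ
      refine ⟨hδO, ?_⟩
      obtain ⟨σ, hσF, hσ1, hσ2⟩ := hcov I' hLI v hv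
      refine ⟨σ, ?_, ?_⟩
      · rw [hF', Finset.mem_filter]
        refine ⟨hσF, ?_, ?_, ?_⟩
        · rw [hσ1]
          intro w hw
          exact Finset.mem_biUnion.mpr ⟨L, hL, hS.pres_mono hLI hw⟩
        · rw [hσ1]
          exact hS.card_le I'
        · refine ⟨v, by rw [hσ1]; exact hv, ?_⟩
          rw [hσ2 v hv, hq0]
      · intro r hr hmk
        apply hbad r hr
        rw [hσ1] at hmk
        exact (col_mk_congr hσ2).mp hmk
    calc ∑ δ ∈ Om.filter (fun δ => ∃ I', L ≤ I' ∧ S.BadAt d0 q δ I'), wt δ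
        ≤ ∑ δ ∈ Om.filter (fun δ => ∃ σ ∈ F', ∀ r < d0, ¬ col_mk σ.1 (δ r) σ.2), wt δ :=
          Finset.sum_le_sum_of_subset_of_nonneg hsub (fun δ hδ _ => hwt δ (Finset.mem_filter.mp hδ).1)
      _ ≤ F'.card * (63 / 64 : ℝ) ^ d0 := by convert hub
      _ ≤ N * (63 / 64 : ℝ) ^ d0 := by
          apply mul_le_mul_of_nonneg_right _ hκ0
          exact_mod_cast (Finset.card_le_card (Finset.filter_subset _ _)).trans hF
  obtain ⟨δ, hδ, hb⟩ := col_avg_leaves leaves μ hμ Om wt hwt hsum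
    (fun δ L => ∃ I', L ≤ I' ∧ S.BadAt d0 q δ I') (N * (63 / 64 : ℝ) ^ d0) key
  exact ⟨δ, hle δ hδ, hb⟩

end Claimed.Agent.R258
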