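/-
Row 258, block [COLOR].  LEAF P-COL-COLOUR: range, monotonicity and injectivity of the colour code; number of groups on a path.  (proved: helper63)
`G.col p = 1 + (KP - 1 - pot) * B^7 + mcode`, `mcode` = mixed radix code (radix `B = d0+1`) of `(r, g, lev, l, n, r2, g2)`.
* for `G` in range: `mcode < B^7` (iterate `a < A → b < B → a * B + b < A * B`), so `col ≤ 1 + (KP-1) B^7 + B^7 - 1 = KP B^7 ≤ d0^30` (`col_colour_bound`).
* injectivity: `col_lex` (second part) repeatedly; `KP - 1 - pot = KP - 1 - pot'` with `pot, pot' < KP` gives `pot = pot'`.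
* anti-monotone: `col_pot_mono`: either `pot I v < pot J v`, then `(KP-1-pot J) + 1 ≤ KP-1-pot I` and `mcode < B^7`; or equal potentials, equal groups.
* count: for `v0 ∈ pres J` apply `col_count_of_potential` to `A = {I0 | J ≤ I0 ∧ v0 ∈ pres I0}`, `σ = grp · v0`, `Ψ = pot · v0`, `N = KP`
  (two elements of `A` are comparable by `Valid.chain`, then `col_pot_mono`); take the union (`Finset.biUnion`, `Finset.card_biUnion_le`) over `v0 ∈ pres J`
  (`pres I0 ⊆ pres J`), `card (pres J) ≤ D`.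
-/
import Claimed.Agent.R258.Pack002

set_option autoImplicit false
open Classical

namespace Claimed.Agent.R258
variable {C V : Type*} [PartialOrder C] {S : ColSys C V} {p : ColPar} {D : ℕ} {dp dh : ℕ → V → ℕ}

theorem col_mcode_lt {G : ColGrp V} (hG : G.InRange p) : G.mcode p < p.B ^ 7 := by
  have hB : ∀ x, x ≤ p.d0 → x < p.B := fun x hx => by unfold ColPar.B; omega
  have h := col_pair_lt (col_pair_lt (col_pair_lt (col_pair_lt (col_pair_lt (col_pair_lt (hB _ hG.r) (hB _ hG.g))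
    (hB _ hG.lev)) (hB _ hG.l.le)) (hB _ hG.n)) (hB _ hG.r2)) (hB _ hG.g2)
  calc G.mcode p < p.B * p.B * p.B * p.B * p.B * p.B * p.B := h
    _ = p.B ^ 7 := by ring

theorem col_col_range (hd : 10 ≤ p.d0) {G : ColGrp V} (hG : G.InRange p) : 1 ≤ G.col p ∧ G.col p ≤ p.d0 ^ 30 := by
  have hm := col_mcode_lt hG
  have hb := p.col_colour_bound hd
  have hK := p.col_KP_pos
  unfold ColGrp.col
  refine ⟨by omega, ?_⟩
  have h1 : (p.KP - 1 - G.pot) * p.B ^ 7 + p.B ^ 7 ≤ p.KP * p.B ^ 7 := by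
    calc (p.KP - 1 - G.pot) * p.B ^ 7 + p.B ^ 7 = (p.KP - 1 - G.pot + 1) * p.B ^ 7 := by ring
      _ ≤ p.KP * p.B ^ 7 := Nat.mul_le_mul_right _ (by omega)
  omega

theorem col_pair_inj {K a b a' b' : ℕ} (hb : b < K) (hb' : b' < K) (h : a * K + b = a' * K + b') :
    a = a' ∧ b = b' := by
  rcases le_total a a' with hle | hle
  · exact (col_lex hb hb' hle (fun e => by subst e; omega)).2 h
  · have := (col_lex hb' hb hle (fun e => by subst e; omega)).2 h.symm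
    exact ⟨this.1.symm, this.2.symm⟩

theorem col_col_inj {G G' : ColGrp V} (hG : G.InRange p) (hG' : G'.InRange p) (h : G.col p = G'.col p) :
    G.r = G'.r ∧ G.g = G'.g ∧ G.lev = G'.lev ∧ G.l = G'.l ∧ G.n = G'.n ∧ G.r2 = G'.r2 ∧ G.g2 = G'.g2 ∧
      G.pot = G'.pot := by
  have hB : ∀ x, x ≤ p.d0 → x < p.B := fun x hx => by unfold ColPar.B; omega
  unfold ColGrp.col at h
  have h0 : (p.KP - 1 - G.pot) * p.B ^ 7 + G.mcode p = (p.KP - 1 - G'.pot) * p.B ^ 7 + G'.mcode p := by omega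
  obtain ⟨hp, hm⟩ := col_pair_inj (col_mcode_lt hG) (col_mcode_lt hG') h0
  have hpot : G.pot = G'.pot := by
    have := hG.pot
    have := hG'.pot
    omega
  unfold ColGrp.mcode at hm
  obtain ⟨hm6, e7⟩ := col_pair_inj (hB _ hG.g2) (hB _ hG'.g2) hm
  obtain ⟨hm5, e6⟩ := col_pair_inj (hB _ hG.r2) (hB _ hG'.r2) hm6
  obtain ⟨hm4, e5⟩ := col_pair_inj (hB _ hG.n) (hB _ hG'.n) hm5
  obtain ⟨hm3, e4⟩ := col_pair_inj (hB _ hG.l.le) (hB _ hG'.l.le) hm4
  obtain ⟨hm2, e3⟩ := col_pair_inj (hB _ hG.lev) (hB _ hG'.lev) hm3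
  obtain ⟨e1, e2⟩ := col_pair_inj (hB _ hG.g) (hB _ hG'.g) hm2
  exact ⟨e1, e2, e3, e4, e5, e6, e7, hpot⟩

theorem col_colour_anti (H : S.Std p D dp dh) {I J : C} (hJI : J ≤ I) {v : V} (hv : v ∈ S.pres I) :
    (S.grp p dp dh J v).col p ≤ (S.grp p dp dh I v).col p := by
  have hvJ : v ∈ S.pres J := H.valid.pres_mono hJI hv
  obtain ⟨hm, he⟩ := col_pot_mono H hJI hv
  rcases Nat.lt_or_ge (S.pot p dp dh I v) (S.pot p dp dh J v) with hlt | hge
  · have hmJ := col_mcode_lt (col_grp_inRange H hvJ)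
    have hpJ : S.pot p dp dh J v < p.KP := (col_pot_lt H hvJ).2
    unfold ColGrp.col
    have e1 : (S.grp p dp dh J v).pot = S.pot p dp dh J v := rfl
    have e2 : (S.grp p dp dh I v).pot = S.pot p dp dh I v := rfl
    rw [e1, e2]
    have h1 : (p.KP - 1 - S.pot p dp dh J v) * p.B ^ 7 + p.B ^ 7 ≤ (p.KP - 1 - S.pot p dp dh I v) * p.B ^ 7 := by
      calc (p.KP - 1 - S.pot p dp dh J v) * p.B ^ 7 + p.B ^ 7
          = (p.KP - 1 - S.pot p dp dh J v + 1) * p.B ^ 7 := by ring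
        _ ≤ (p.KP - 1 - S.pot p dp dh I v) * p.B ^ 7 := Nat.mul_le_mul_right _ (by omega)
    omega
  · rw [he (le_antisymm hm hge)]

theorem col_grp_count (H : S.Std p D dp dh) (J : C) :
    ∃ F : Finset (ColGrp V), F.card ≤ D * p.KP ∧
      ∀ (I0 : C) (v0 : V), J ≤ I0 → v0 ∈ S.pres I0 → S.grp p dp dh I0 v0 ∈ F := by
  have hone : ∀ v0 : V, ∃ F : Finset (ColGrp V), F.card ≤ p.KP ∧
      ∀ I0 ∈ {I0 : C | J ≤ I0 ∧ v0 ∈ S.pres I0}, S.grp p dp dh I0 v0 ∈ F := by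
    intro v0
    apply col_count_of_potential {I0 : C | J ≤ I0 ∧ v0 ∈ S.pres I0} (fun I0 => S.grp p dp dh I0 v0)
      (fun I0 => S.pot p dp dh I0 v0) p.KP
    · rintro I0 ⟨_, hv⟩
      exact (col_pot_lt H hv).2
    · rintro I0 ⟨hJ0, hv0⟩ I1 ⟨hJ1, hv1⟩ he
      rcases H.valid.chain hJ0 hJ1 with hle | hle
      · exact ((col_pot_mono H hle hv1).2 he.symm).symm
      · exact (col_pot_mono H hle hv0).2 he
  choose F hF hmem using hone
  refine ⟨(S.pres J).biUnion F, ?_, ?_⟩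
  · calc ((S.pres J).biUnion F).card ≤ ∑ v0 ∈ S.pres J, (F v0).card := Finset.card_biUnion_le
      _ ≤ ∑ _v0 ∈ S.pres J, p.KP := Finset.sum_le_sum (fun v0 _ => hF v0)
      _ = (S.pres J).card * p.KP := by rw [Finset.sum_const, smul_eq_mul]
      _ ≤ D * p.KP := Nat.mul_le_mul_right _ (H.valid.card_le J)
  · intro I0 v0 hJ hv
    rw [Finset.mem_biUnion]
    exact ⟨v0, H.valid.pres_mono hJ hv, hmem v0 I0 ⟨hJ, hv⟩⟩

end Claimed.Agent.R258
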