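/-
Row 258, block [COLOR].  LEAF P-COL-M1: marked centres, elementary properties of the masks, Lemma historical-masks (1) and the path bound of (2).
(localization.tex l.398-445.)  (proved: helper63)   Use ONLY `col_wit_facts` (structure `WitFacts`, State.lean) for what is known at a central assignment; never unfold `grp`.
Notation: `X = G.toColCtx`, `s = depth I`, `δ = dp G.r`, `T_l = p.Tl G.g l`, `U = p.Ug G.g`.

* `col_centre_riv`: a rival `w ∈ W \ {z}` is in `pres I` (`W_eq`), `w ≠ z`, so `δ w + 5 ≤ g + q1 w` with `q1 w = dist s w v / b1`, `b1 * (dist / b1) ≤ dist` (`Nat.mul_div_le`):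
  `tsc = b1 δ w - dist ≤ b1 (g - 5)`.
* `col_centre_win`: `δ z = g + dist s z v / b1` and `dist < b1 * (dist / b1 + 1)` (`Nat.lt_mul_div_succ`, `b1 > 0`).
* `col_mask_incl`, witness `(I, v)`:  (i) triangle inequality in `col_centre_win`;  (ii),(iii): `col_fd_two_phase` at depth `s` for the levels `l+1` and `l`:
  `rivLe v s ((g-5) b1)`, `rivLe b s ((g-5) b1 + h)` (`col_rivLe_lip`), and `(g-5) b1 + h ≤ (g-3) b1 ≤ T_l` since `h ≤ Hm < b1` (`col_Hm_lt_b1`, `col_Tl_ge`);
  `h ≤ 10 * Rl l * h` since `Rl l ≥ 1` (`col_Rl_pos`, `1 ≤ G.l`).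
* `col_mask_depth`: same witness; `dist (depth J) ≤ dist (depth I)`; the two metric predicates do not depend on the cell.
* `col_mask_path`: first predicate of `Pad` with `g ≥ 0`, `δ z ≤ d0`.
-/
import Claimed.Agent.R258.Pack002

set_option autoImplicit false
open Classical

namespace Claimed.Agent.R258
variable {C V : Type*} [PartialOrder C] {S : ColSys C V} {p : ColPar} {D : ℕ} {dp dh : ℕ → V → ℕ}

theorem col_mem_mask_iff {G : ColGrp V} {h : ℕ} {I : C} {b : V} :
    b ∈ S.mask p dp dh G h I ↔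
      b ∈ S.pres I ∧ ∃ I0 v0, I ≤ I0 ∧ S.Wit p dp dh G I0 v0 ∧ S.Pad p dp G h (S.depth I) v0 b := by
  unfold ColSys.mask
  rw [Finset.mem_filter]

/-- at a marked centre every rival has true score `≤ (g-5) b_1` -/
theorem col_centre_riv (H : S.Std p D dp dh) {G : ColGrp V} {I : C} {v : V} (F : S.WitFacts p dp dh G I v) :
    S.rivLe p dp G.toColCtx v (S.depth I) (((G.g : ℤ) - 5) * p.b1) := by
  intro w hw
  have hw' : w ≠ G.z ∧ w ∈ G.W := Finset.mem_erase.mp hw
  have hwp : w ∈ S.pres I := by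
    have := hw'.2
    rw [F.W_eq, Finset.mem_filter] at this
    exact this.1
  have h1 : dp G.r w + 5 ≤ G.g + S.dist (S.depth I) w v / p.b1 := F.mk1.2.2 w hwp hw'.1
  have h2 : p.b1 * (S.dist (S.depth I) w v / p.b1) ≤ S.dist (S.depth I) w v := Nat.mul_div_le _ _
  have h3 : p.b1 * (dp G.r w + 5) ≤ p.b1 * (G.g + S.dist (S.depth I) w v / p.b1) := Nat.mul_le_mul_left _ h1
  show ((p.b1 * dp G.r w : ℕ) : ℤ) - (S.dist (S.depth I) w v : ℤ) ≤ ((G.g : ℤ) - 5) * p.b1
  zify at h2 h3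
  push_cast
  nlinarith

/-- at a marked centre the winner has true score `> (g-1) b_1` -/
theorem col_centre_win (H : S.Std p D dp dh) {G : ColGrp V} {I : C} {v : V} (F : S.WitFacts p dp dh G I v) :
    G.g * p.b1 + S.dist (S.depth I) G.z v < p.b1 * dp G.r G.z + p.b1 := by
  have h1 : dp G.r G.z = G.g + S.dist (S.depth I) G.z v / p.b1 := F.mk1.2.1
  have h2 := Nat.lt_mul_div_succ (S.dist (S.depth I) G.z v) (p.col_b1_pos H.d0_ge)
  rw [h1]
  calc G.g * p.b1 + S.dist (S.depth I) G.z v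
      < G.g * p.b1 + p.b1 * (S.dist (S.depth I) G.z v / p.b1 + 1) := by omega
    _ = p.b1 * (G.g + S.dist (S.depth I) G.z v / p.b1) + p.b1 := by ring

/-- a vertex within distance `h ≤ Hm` of a marked centre has its profile below every lower clip -/
theorem col_near_centre_riv (H : S.Std p D dp dh) {G : ColGrp V} {I : C} {v b : V} {h : ℕ}
    (F : S.WitFacts p dp dh G I v) (hh : h ≤ p.Hm) (hd : S.dist (S.depth I) b v ≤ h) (l : ℕ) :
    S.rivLe p dp G.toColCtx b (S.depth I) (p.Tl G.g l) := by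
  have h1 := col_rivLe_lip H.valid p dp G.toColCtx b v (S.depth I) (col_centre_riv H F)
  apply col_rivLe_le p dp G.toColCtx b (S.depth I) _ h1
  have h2 := p.col_Tl_ge G.g l
  have h3 : ((p.Hm + 10 : ℕ) : ℤ) < p.b1 := by exact_mod_cast p.col_Hm_lt_b1 H.d0_ge
  have h4 : (S.dist (S.depth I) b v : ℤ) ≤ p.Hm := by exact_mod_cast hd.trans hh
  push_cast at h3
  nlinarith

/-- Lemma historical-masks (1) -/
theorem col_mask_incl (H : S.Std p D dp dh) {G : ColGrp V} {I : C} {v b : V} {h : ℕ} (hW : S.Wit p dp dh G I v)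
    (hb : b ∈ S.pres I) (hh : h ≤ p.Hm) (hd : S.dist (S.depth I) b v ≤ h) : b ∈ S.mask p dp dh G h I := by
  have F := col_wit_facts H hW
  have hl1 : G.l + 1 ≤ p.d0 := F.range.l
  have hvv : S.dist (S.depth I) v v ≤ h := by rw [H.valid.dist_self]; exact Nat.zero_le _
  rw [col_mem_mask_iff]
  refine ⟨hb, I, v, le_rfl, hW, ?_, ?_, ?_⟩
  · have h1 := col_centre_win H F
    have h2 := H.valid.dist_tri (S.depth I) G.z v b
    have h3 := H.valid.dist_symm (S.depth I) v b
    omega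
  · exact col_fd_two_phase H.valid p dp G.toColCtx (G.l + 1) b v (S.depth I) h
      (p.col_Tl_lt_Ug H.d0_ge G.g hl1).le (col_near_centre_riv H F hh hd _) (col_near_centre_riv H F hh hvv _) hd
  · have h1 := col_fd_two_phase H.valid p dp G.toColCtx G.l b v (S.depth I) h
      (p.col_Tl_lt_Ug H.d0_ge G.g (by omega)).le (col_near_centre_riv H F hh hd _)
      (col_near_centre_riv H F hh hvv _) hd
    have h2 := p.col_Rl_pos F.range.l1
    calc S.fd p dp G.toColCtx G.l b v ≤ h := h1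
      _ = 1 * h := (one_mul h).symm
      _ ≤ 10 * p.Rl G.l * h := Nat.mul_le_mul_right _ (by omega)

theorem col_mask_present (S : ColSys C V) (p : ColPar) (dp dh : ℕ → V → ℕ) (G : ColGrp V) (h : ℕ) (I : C) :
    S.mask p dp dh G h I ⊆ S.pres I :=
  Finset.filter_subset _ _

theorem col_mask_pad (S : ColSys C V) (p : ColPar) (dp dh : ℕ → V → ℕ) (G : ColGrp V) {h h' : ℕ} (hh : h ≤ h') (I : C) :
    S.mask p dp dh G h I ⊆ S.mask p dp dh G h' I := by
  intro b hb
  rw [col_mem_mask_iff] at hb ⊢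
  obtain ⟨hbp, I0, v0, hI0, hW, h1, h2, h3⟩ := hb
  refine ⟨hbp, I0, v0, hI0, hW, by omega, by omega, h3.trans (Nat.mul_le_mul_left _ hh)⟩

theorem col_mask_depth (H : S.Std p D dp dh) (G : ColGrp V) (h : ℕ) {I J : C} (hJI : J ≤ I) :
    S.mask p dp dh G h I ⊆ S.mask p dp dh G h J := by
  intro b hb
  rw [col_mem_mask_iff] at hb ⊢
  obtain ⟨hbp, I0, v0, hI0, hW, h1, h2, h3⟩ := hb
  refine ⟨H.valid.pres_mono hJI hbp, I0, v0, hJI.trans hI0, hW, ?_, h2, h3⟩
  have := H.valid.dist_anti G.z b (H.valid.depth_mono hJI)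
  omega

/-- path bound of Lemma historical-masks (2) -/
theorem col_mask_path (H : S.Std p D dp dh) {G : ColGrp V} {h : ℕ} {I : C} {b : V} (hb : b ∈ S.mask p dp dh G h I)
    (hh : h ≤ p.Hm) : S.dist (S.depth I) G.z b ≤ (p.d0 + 1) * p.b1 + p.Hm := by
  rw [col_mem_mask_iff] at hb
  obtain ⟨_, I0, v0, _, _, h1, _, _⟩ := hb
  have h2 : p.b1 * dp G.r G.z ≤ p.b1 * p.d0 := Nat.mul_le_mul_left _ (H.dp_le _ _)
  have h3 : (p.d0 + 1) * p.b1 = p.b1 * p.d0 + p.b1 := by ring
  have h4 : 0 ≤ G.g * p.b1 := Nat.zero_le _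
  omega

theorem col_centre_present (H : S.Std p D dp dh) {G : ColGrp V} {h : ℕ} {I : C}
    (hne : (S.mask p dp dh G h I).Nonempty) : G.z ∈ S.pres I := by
  obtain ⟨b, hb⟩ := hne
  rw [col_mem_mask_iff] at hb
  obtain ⟨_, I0, v0, hI0, hW, _⟩ := hb
  exact H.valid.pres_mono hI0 (col_wit_facts H hW).z_mem

end Claimed.Agent.R258
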