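/-
Row 258, block [COLOR].  LEAF P-COL-M2: comparison of a historical witness with the current centre; the TRUE RIVAL BOUND.
(localization.tex l.446-470.)  (proved: helper63)   Use only `WitFacts` (State.lean), Metric.lean, Lev.lean (`col_two_balls`), Arith.lean.
Notation: `X = G.toColCtx`, `l = G.l`, `n = G.n`, `ε = dh G.r2`.

* `col_high_close`: `mk2` gives `ε a = g2 + fd (l+1) a v / b2`, `ε a ≤ d0`, so `fd (l+1) a v / b2 ≤ d0`, i.e. `fd (l+1) a v < (d0+1) b2` (`Nat.div_lt_iff_lt_mul`/`Nat.lt_mul_div_succ`).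
* `col_wit_close` (`I ≤ I0`): `fd (l+1) v0 v < 2 (d0+1) b2` (triangle via `a`, symmetry).
  `A := ball X l I0 v0`, `B := ball X l I v`, `E := ball X (l+1) I v`.  `B ⊆ E` (`col_ball_succ`).  `A ⊆ E`: `pres I0 ⊆ pres I`, and for `x ∈ A`:
  `fd (l+1) x v ≤ fd (l+1) x v0 + fd (l+1) v0 v ≤ fd l x v0 + 2 (d0+1) b2 ≤ Rl l + 2 (d0+1) b2 ≤ Rl (l+1)` (`col_fd_succ_le`, `col_Rl_succ`).
  Sizes: `col_nl_spec` with `n_eq` at `(I0,v0)` and `(I,v)`, `n_eq'` at `(I,v)`.  `col_two_balls` gives `x ∈ A ∩ B`; triangle inequality in `fd l`.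
* `col_true_rival`: unfold the mask (`col_mem_mask_iff`): witness `(I0,v0)`, `fd l b v0 ≤ 10 Rl h`; with `col_wit_close`: `fd l b v ≤ A_h := 10 Rl h + 2 Rl`.
  `cf l v s = T_l` (`col_cf_eq_of_rivLe`, `col_centre_riv`, `(g-5) b1 ≤ T_l`).  By `col_fd_le_iff`: `cf l b s ≤ T_l + A_h < T_l + stp = T_{l+1} < U` (`col_Ah`, `col_Tl_succ`, `col_Tl_lt_Ug`).
  `col_rivLe_of_cf_lt` + `col_rivLe_le`.
-/
import Claimed.Agent.R258.Color.MaskA

set_option autoImplicit false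
open Classical

namespace Claimed.Agent.R258
variable {C V : Type*} [PartialOrder C] {S : ColSys C V} {p : ColPar} {D : ℕ} {dp dh : ℕ → V → ℕ}

theorem col_high_close (H : S.Std p D dp dh) {G : ColGrp V} {I : C} {v : V} (F : S.WitFacts p dp dh G I v) :
    S.fd p dp G.toColCtx (G.l + 1) G.a v < (p.d0 + 1) * p.b2 := by
  have h1 : dh G.r2 G.a = G.g2 + S.fd p dp G.toColCtx (G.l + 1) G.a v / p.b2 := F.mk2.2.1
  have h2 := H.dh_le G.r2 G.a
  have h3 := Nat.lt_mul_div_succ (S.fd p dp G.toColCtx (G.l + 1) G.a v) p.col_b2_pos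
  calc S.fd p dp G.toColCtx (G.l + 1) G.a v
      < p.b2 * (S.fd p dp G.toColCtx (G.l + 1) G.a v / p.b2 + 1) := h3
    _ ≤ p.b2 * (p.d0 + 1) := Nat.mul_le_mul_left _ (by omega)
    _ = (p.d0 + 1) * p.b2 := Nat.mul_comm _ _

theorem col_wit_close (H : S.Std p D dp dh) {G : ColGrp V} {I I0 : C} {v v0 : V}
    (F0 : S.WitFacts p dp dh G I0 v0) (F : S.WitFacts p dp dh G I v) (hI : I ≤ I0) :
    S.fd p dp G.toColCtx G.l v0 v ≤ 2 * p.Rl G.l := by
  have hl1 : G.l + 1 ≤ p.d0 := F.range.l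
  have hTU : p.Tl G.g (G.l + 1) ≤ p.Ug G.g := (p.col_Tl_lt_Ug H.d0_ge G.g hl1).le
  have c0 := col_high_close H F0
  have c1 := col_high_close H F
  have hv0v : S.fd p dp G.toColCtx (G.l + 1) v0 v < 2 * ((p.d0 + 1) * p.b2) := by
    have h1 := col_fd_tri (S := S) p dp G.toColCtx (G.l + 1) v0 G.a v
    have h2 := col_fd_symm (S := S) p dp G.toColCtx (G.l + 1) v0 G.a
    omega
  have hB : S.ball p dp G.toColCtx G.l I v ⊆ S.ball p dp G.toColCtx (G.l + 1) I v := col_ball_succ H G.toColCtx hl1 I v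
  have hA : S.ball p dp G.toColCtx G.l I0 v0 ⊆ S.ball p dp G.toColCtx (G.l + 1) I v := by
    intro y hy
    unfold ColSys.ball at hy ⊢
    rw [Finset.mem_filter] at hy ⊢
    refine ⟨H.valid.pres_mono hI hy.1, ?_⟩
    have h1 := col_fd_tri (S := S) p dp G.toColCtx (G.l + 1) y v0 v
    have h2 := col_fd_succ_le (S := S) p dp G.toColCtx G.l y v0 hTU
    have h3 := p.col_Rl_succ G.l
    have h4 := hy.2
    omega
  have sA := (col_nl_spec S p dp G.toColCtx G.l F0.v_mem).1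
  rw [F0.n_eq] at sA
  have sB := (col_nl_spec S p dp G.toColCtx G.l F.v_mem).1
  rw [F.n_eq] at sB
  have sE := (col_nl_spec S p dp G.toColCtx (G.l + 1) F.v_mem).2
  rw [F.n_eq'] at sE
  obtain ⟨y, hy⟩ := col_two_balls hA hB sA sB sE
  rw [Finset.mem_inter] at hy
  obtain ⟨hyA, hyB⟩ := hy
  unfold ColSys.ball at hyA hyB
  rw [Finset.mem_filter] at hyA hyB
  have h1 := col_fd_tri (S := S) p dp G.toColCtx G.l v0 y v
  have h2 := col_fd_symm (S := S) p dp G.toColCtx G.l v0 y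
  have h3 := hyA.2
  have h4 := hyB.2
  omega

/-- the clipped profile of a marked centre sits at the lower clip, at its depth -/
theorem col_centre_cf (H : S.Std p D dp dh) {G : ColGrp V} {I : C} {v : V} (F : S.WitFacts p dp dh G I v) {l : ℕ}
    (hl : l ≤ p.d0) : S.cf p dp G.toColCtx l v (S.depth I) = p.Tl G.g l := by
  apply col_cf_eq_of_rivLe p dp G.toColCtx l v (S.depth I) (p.col_Tl_lt_Ug H.d0_ge G.g hl).le
  exact col_near_centre_riv H F (Nat.zero_le _) (by rw [H.valid.dist_self]) l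

/-- distance in the low metric from a mask vertex to the current centre -/
theorem col_mask_close (H : S.Std p D dp dh) {G : ColGrp V} {I : C} {v b : V} {h : ℕ} (hW : S.Wit p dp dh G I v)
    (hb : b ∈ S.mask p dp dh G h I) : S.fd p dp G.toColCtx G.l b v ≤ 10 * p.Rl G.l * h + 2 * p.Rl G.l := by
  rw [col_mem_mask_iff] at hb
  obtain ⟨_, I0, v0, hI0, hW0, _, _, h3⟩ := hb
  have h1 := col_wit_close H (col_wit_facts H hW0) (col_wit_facts H hW) hI0
  have h2 := col_fd_tri (S := S) p dp G.toColCtx G.l b v0 v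
  omega

/-- TRUE RIVAL BOUND `f_b(s) ≤ T_l + A_h` at an actual use -/
theorem col_true_rival (H : S.Std p D dp dh) {G : ColGrp V} {I : C} {v b : V} {h : ℕ} (hW : S.Wit p dp dh G I v)
    (hb : b ∈ S.mask p dp dh G h I) (hh : h ≤ p.Hm) :
    S.rivLe p dp G.toColCtx b (S.depth I) (p.Tl G.g G.l + ((10 * p.Rl G.l * h + 2 * p.Rl G.l : ℕ) : ℤ)) := by
  have F := col_wit_facts H hW
  have hl1 : G.l + 1 ≤ p.d0 := F.range.l
  have hclose := col_mask_close H hW hb
  have h1 := col_abs_le_fd (S := S) p dp G.toColCtx G.l b v (S.depth I)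
  rw [col_centre_cf H F (by omega)] at h1
  have h2 : (S.fd p dp G.toColCtx G.l b v : ℤ) ≤ ((10 * p.Rl G.l * h + 2 * p.Rl G.l : ℕ) : ℤ) := by
    exact_mod_cast hclose
  have h3 : S.cf p dp G.toColCtx G.l b (S.depth I)
      ≤ p.Tl G.g G.l + ((10 * p.Rl G.l * h + 2 * p.Rl G.l : ℕ) : ℤ) := by
    have := (abs_le.mp h1).2
    linarith
  have h4 : ((10 * p.Rl G.l * h + 2 * p.Rl G.l + 10 : ℕ) : ℤ) < p.stp := by
    exact_mod_cast p.col_Ah H.d0_ge (l := G.l) (by omega) hh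
  have h5 := p.col_Tl_succ G.g G.l
  have h6 := p.col_Tl_lt_Ug H.d0_ge G.g hl1
  have h7 : S.cf p dp G.toColCtx G.l b (S.depth I) < p.Ug G.toColCtx.g := by
    show _ < p.Ug G.g
    push_cast at h4 h3 ⊢
    linarith
  exact col_rivLe_le p dp G.toColCtx b (S.depth I) h3 (col_rivLe_of_cf_lt p dp G.toColCtx G.l b (S.depth I) h7)

/-- `f_b(s) < T_{l+1} - 10` at an actual use -/
theorem col_true_rival' (H : S.Std p D dp dh) {G : ColGrp V} {I : C} {v b : V} {h : ℕ} (hW : S.Wit p dp dh G I v)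
    (hb : b ∈ S.mask p dp dh G h I) (hh : h ≤ p.Hm) :
    S.rivLe p dp G.toColCtx b (S.depth I) (p.Tl G.g (G.l + 1) - 11) := by
  have F := col_wit_facts H hW
  have hl1 : G.l + 1 ≤ p.d0 := F.range.l
  apply col_rivLe_le p dp G.toColCtx b (S.depth I) _ (col_true_rival H hW hb hh)
  have h4 : ((10 * p.Rl G.l * h + 2 * p.Rl G.l + 10 : ℕ) : ℤ) < p.stp := by
    exact_mod_cast p.col_Ah H.d0_ge (l := G.l) (by omega) hh
  have h5 := p.col_Tl_succ G.g G.l
  push_cast at h4 ⊢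
  linarith

end Claimed.Agent.R258
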