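/-
Row 258, block [COLOR].  LEAF P-COL-M3: Lemma historical-masks (2), neighbour closure at an actual use.  (localization.tex l.471-485.)  (proved: helper63)
Setting: use of `G` at `I` with centre `v` (`hu`), `s = depth I`, `b ∈ mask G h I` with witness `(I0, v0)`, `h < Hm`, `b' ∈ pres I`, `dist s b b' ≤ 1`.
Claim: `b' ∈ mask G (h+1) I` with the SAME witness.   `X = G.toColCtx`, `l = G.l`, `R = Rl l`, `A_h = 10 R h + 2 R`.
 (i)  `g b1 + dist s z b' ≤ g b1 + dist s z b + 1`.
 (ii) `fd (l+1) b' b ≤ 1` by `col_fd_two_phase` at depth `s`, level `l+1`: `rivLe b s (T_{l+1} - 11)` (`col_true_rival'`), `rivLe b' s (T_{l+1} - 10)` (`col_rivLe_lip`).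
      Then the triangle inequality: `fd (l+1) b' v0 ≤ 1 + h`.
 (iii) `fd l b' v0 ≤ 10 R (h+1)` through `col_fd_le_iff`; fix `s'`.
      `s' ≥ s`: `|cf b' - cf v0| ≤ |cf b' - cf b| + |cf b - cf v0| ≤ dist s' b' b + 10 R h ≤ 1 + 10 R h`.
      `s' ≤ s`: `T_l ≤ cf l b' s' ≤ cf l b' s ≤ T_l + A_h + 1` (`col_cf_mono`, `col_cf_le_of_rivLe`, `col_true_rival`, `col_rivLe_lip`) and
               `T_l ≤ cf l v0 s' ≤ cf l v0 s ≤ cf l v s + fd l v0 v ≤ T_l + 2 R` (`col_centre_cf`, `col_wit_close`, `col_fd_le_iff`);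
               so the difference is `≤ A_h + 1 = 10 R h + 2 R + 1 ≤ 10 R (h+1)` (`R ≥ 1`).
-/
import Claimed.Agent.R258.Color.MaskB

set_option autoImplicit false
open Classical

namespace Claimed.Agent.R258
variable {C V : Type*} [PartialOrder C] {S : ColSys C V} {p : ColPar} {D : ℕ} {dp dh : ℕ → V → ℕ}

/-- adjacency at (or before) an actual use gives distance `≤ 1` in the high metric -/
theorem col_adj_high (H : S.Std p D dp dh) {G : ColGrp V} {I : C} {v b b' : V} {h : ℕ} (hW : S.Wit p dp dh G I v)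
    (hb : b ∈ S.mask p dp dh G h I) (hh : h ≤ p.Hm) (hd : S.dist (S.depth I) b b' ≤ 1) :
    S.fd p dp G.toColCtx (G.l + 1) b b' ≤ 1 := by
  have F := col_wit_facts H hW
  have hl1 : G.l + 1 ≤ p.d0 := F.range.l
  have hr := col_true_rival' H hW hb hh
  apply col_fd_two_phase H.valid p dp G.toColCtx (G.l + 1) b b' (S.depth I) 1
    (p.col_Tl_lt_Ug H.d0_ge G.g hl1).le _ _ hd
  · exact col_rivLe_le p dp G.toColCtx b (S.depth I) (by show p.Tl G.g (G.l + 1) - 11 ≤ p.Tl G.g (G.l + 1); omega) hr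
  · have h1 := col_rivLe_lip H.valid p dp G.toColCtx b' b (S.depth I) hr
    apply col_rivLe_le p dp G.toColCtx b' (S.depth I) _ h1
    have h2 : (S.dist (S.depth I) b' b : ℤ) ≤ 1 := by
      rw [H.valid.dist_symm]
      exact_mod_cast hd
    show p.Tl G.g (G.l + 1) - 11 + (S.dist (S.depth I) b' b : ℤ) ≤ p.Tl G.g (G.l + 1)
    omega

/-- Lemma historical-masks (2) -/
theorem col_mask_nbr (H : S.Std p D dp dh) {G : ColGrp V} {I : C} {b b' : V} {h : ℕ} (hu : S.use p dp dh G I)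
    (hh : h < p.Hm) (hb : b ∈ S.mask p dp dh G h I) (hb' : b' ∈ S.pres I) (hd : S.dist (S.depth I) b b' ≤ 1) :
    b' ∈ S.mask p dp dh G (h + 1) I := by
  obtain ⟨v, hW⟩ := hu
  have F := col_wit_facts H hW
  have hl1 : G.l + 1 ≤ p.d0 := F.range.l
  have hl0 : G.l ≤ p.d0 := by omega
  have hTU : p.Tl G.toColCtx.g G.l ≤ p.Ug G.toColCtx.g := (p.col_Tl_lt_Ug H.d0_ge G.g hl0).le
  have hR := p.col_Rl_pos F.range.l1
  have hadj := col_adj_high H hW hb hh.le hd
  have hriv := col_true_rival H hW hb hh.le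
  have hb0 := hb
  rw [col_mem_mask_iff] at hb0
  obtain ⟨_, I0, v0, hI0, hW0, P1, P2, P3⟩ := hb0
  have F0 := col_wit_facts H hW0
  have hd' : S.dist (S.depth I) b' b ≤ 1 := by rw [H.valid.dist_symm]; exact hd
  rw [col_mem_mask_iff]
  refine ⟨hb', I0, v0, hI0, hW0, ?_, ?_, ?_⟩
  · have := H.valid.dist_tri (S.depth I) G.z b b'
    omega
  · have h1 := col_fd_tri (S := S) p dp G.toColCtx (G.l + 1) b' b v0
    have h2 := col_fd_symm (S := S) p dp G.toColCtx (G.l + 1) b' b
    omega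
  · rw [col_fd_le_iff]
    intro s'
    have hgoal : ((10 * p.Rl G.l * h + 2 * p.Rl G.l + 1 : ℕ) : ℤ) ≤ ((10 * p.Rl G.l * (h + 1) : ℕ) : ℤ) := by
      have : 10 * p.Rl G.l * h + 2 * p.Rl G.l + 1 ≤ 10 * p.Rl G.l * (h + 1) := by
        have e : 10 * p.Rl G.l * (h + 1) = 10 * p.Rl G.l * h + 10 * p.Rl G.l := by ring
        omega
      exact_mod_cast this
    rcases le_total s' (S.depth I) with hs | hs
    · -- before the use: both clipped profiles are close to the lower clip
      have a1 := col_cf_ge (S := S) p dp G.toColCtx G.l b' s' hTU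
      have a2 := col_cf_ge (S := S) p dp G.toColCtx G.l v0 s' hTU
      have b1 := col_cf_mono H.valid p dp G.toColCtx G.l b' hs
      have b2 := col_cf_mono H.valid p dp G.toColCtx G.l v0 hs
      have c1 : S.cf p dp G.toColCtx G.l b' (S.depth I)
          ≤ p.Tl G.g G.l + ((10 * p.Rl G.l * h + 2 * p.Rl G.l : ℕ) : ℤ) + 1 := by
        apply col_cf_le_of_rivLe
        · show p.Tl G.g G.l ≤ _
          have : (0 : ℤ) ≤ ((10 * p.Rl G.l * h + 2 * p.Rl G.l : ℕ) : ℤ) := by positivity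
          linarith
        · apply col_rivLe_le p dp G.toColCtx b' (S.depth I) _
            (col_rivLe_lip H.valid p dp G.toColCtx b' b (S.depth I) hriv)
          have : (S.dist (S.depth I) b' b : ℤ) ≤ 1 := by exact_mod_cast hd'
          linarith
      have c2 : S.cf p dp G.toColCtx G.l v0 (S.depth I) ≤ p.Tl G.g G.l + ((2 * p.Rl G.l : ℕ) : ℤ) := by
        have e1 := col_abs_le_fd (S := S) p dp G.toColCtx G.l v0 v (S.depth I)
        rw [col_centre_cf H F hl0] at e1
        have e2 : (S.fd p dp G.toColCtx G.l v0 v : ℤ) ≤ ((2 * p.Rl G.l : ℕ) : ℤ) := by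
          exact_mod_cast col_wit_close H F0 F hI0
        have := (abs_le.mp e1).2
        linarith
      have a1' : p.Tl G.g G.l ≤ S.cf p dp G.toColCtx G.l b' s' := a1
      have a2' : p.Tl G.g G.l ≤ S.cf p dp G.toColCtx G.l v0 s' := a2
      rw [abs_le]
      push_cast at hgoal c1 c2 ⊢
      have hRz : (0 : ℤ) ≤ (p.Rl G.l : ℤ) := by positivity
      have hhz : (0 : ℤ) ≤ (p.Rl G.l : ℤ) * (h : ℤ) := by positivity
      constructor <;> nlinarith
    · -- after the use: Lipschitz bound and the witness predicate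
      have e1 := col_cf_lip H.valid p dp G.toColCtx G.l b' b s'
      have e2 := col_abs_le_fd (S := S) p dp G.toColCtx G.l b v0 s'
      have e3 : (S.dist s' b' b : ℤ) ≤ 1 := by exact_mod_cast (H.valid.dist_anti b' b hs).trans hd'
      have e4 : (S.fd p dp G.toColCtx G.l b v0 : ℤ) ≤ ((10 * p.Rl G.l * h : ℕ) : ℤ) := by exact_mod_cast P3
      have e5 := abs_sub_le (S.cf p dp G.toColCtx G.l b' s') (S.cf p dp G.toColCtx G.l b s')
        (S.cf p dp G.toColCtx G.l v0 s')
      have hRz : (1 : ℤ) ≤ (p.Rl G.l : ℤ) := by exact_mod_cast hR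
      push_cast at hgoal e4 ⊢
      nlinarith

end Claimed.Agent.R258
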