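/-
Row 258, block [COLOR].  LEAF P-COL-SEP2 (`col_sep_z_eq`): Lemma historical-masks (3), same primary winner.  (proved: helper63)  (localization.tex l.486-528.)
Setting: `u ≤ J ≤ I`; `b ∈ mask G h I` with witness `(I0, v0)`, `I ≤ I0`; `b' ∈ mask G' h' J` with witness `(J0, v0')`, `J ≤ J0`; `G'` is used at `u` with centre `v'`;
`G.col p = G'.col p`; `dist (depth J) b b' ≤ 1`.  Let `su = depth u ≥ depth J ≥ depth I`.  Then `dist su b b' ≤ 1`, `b' ∈ mask G' h' u` (`col_mask_depth`).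
`col_col_inj` (ranges from `WitFacts.range`): `r, g, lev, l, n, r2, g2, pot` agree.   NO use of `G` below `I` is needed.

SEP2 (`z = z'`).  `pe := col_pe (adm z) t` is common, `pe ≤ card (pres I0)`, `pe ≤ card (pres J0)` (`WitFacts.pe_le`); `I0, J0 ≥ J` are comparable (`Valid.chain`); `col_prefix_eq` gives `W = W'`.
  So the contexts coincide, and `G ≠ G'` forces `a ≠ a'` (`ColGrp.ext`).   Both orders of `I0, J0` are symmetric; say `J0 ≤ I0` (later witness `(J0, v0')`):
  `a ∈ pres I0 ⊆ pres J0`, `a ≠ a'`: `mk2` at `(J0,v0')`: `ε a + 5 ≤ g2 + fd (l+1) a v0' / b2`;  `mk2` at `(I0,v0)`: `ε a = g2 + fd (l+1) a v0 / b2`.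
  So `fd a v0 / b2 + 5 ≤ fd a v0' / b2`, hence `fd a v0' ≥ fd a v0 + 4 b2` hence `fd (l+1) v0 v0' ≥ 4 b2 > 2 Hm + 1` (`col_Hm_lt_b2`; precisely `x / b + 5 ≤ y / b → x + 4 b < y`).
  On the other hand `fd (l+1) b' b ≤ 1` (`col_adj_high` for `G'` at `u`), so `fd (l+1) v0 v0' ≤ h + 1 + h'` by the second predicates of `Pad`.  Contradiction.
-/
import Claimed.Agent.R258.Color.MaskC
import Claimed.Agent.R258.Color.Colour

set_option autoImplicit false
open Classical

namespace Claimed.Agent.R258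
variable {C V : Type*} [PartialOrder C] {S : ColSys C V} {p : ColPar} {D : ℕ} {dp dh : ℕ → V → ℕ}

theorem col_div_gap {x y b : ℕ} (hb : 0 < b) (h : x / b + 5 ≤ y / b) : x + 4 * b < y := by
  have h1 := Nat.lt_mul_div_succ x hb
  have h2 := Nat.mul_div_le y b
  have h3 : b * (x / b + 5) ≤ b * (y / b) := Nat.mul_le_mul_left _ h
  have h4 : b * (x / b + 5) = b * (x / b + 1) + 4 * b := by ring
  omega

theorem col_sep_z_eq (H : S.Std p D dp dh) {G G' : ColGrp V} (hne : G ≠ G') (hcol : G.col p = G'.col p)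
    (hz : G.z = G'.z) {I J u : C} (hJI : J ≤ I) (huJ : u ≤ J) (hu : S.use p dp dh G' u) {b b' : V} {h h' : ℕ}
    (hb : b ∈ S.mask p dp dh G h I) (hb' : b' ∈ S.mask p dp dh G' h' J) (hh : h ≤ p.Hm) (hh' : h' ≤ p.Hm)
    (hd : S.dist (S.depth J) b b' ≤ 1) : False := by
  obtain ⟨v', hW'⟩ := hu
  have hb'u : b' ∈ S.mask p dp dh G' h' u := col_mask_depth H G' h' huJ hb'
  rw [col_mem_mask_iff] at hb hb'
  obtain ⟨_, I0, v0, hI0, hW0, _, P2, _⟩ := hb
  obtain ⟨_, J0, v0', hJ0, hW0', _, P2', _⟩ := hb'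
  have F0 := col_wit_facts H hW0
  have F0' := col_wit_facts H hW0'
  obtain ⟨er, eg, elev, el, en, er2, eg2, epot⟩ := col_col_inj F0.range F0'.range hcol
  have hcmp := H.valid.chain (hJI.trans hI0) hJ0
  -- the frozen prefixes coincide
  have hWW : G.W = G'.W := by
    rw [F0.W_eq, F0'.W_eq, hz, elev]
    have pe0 := F0.pe_le
    have pe0' := F0'.pe_le
    rw [hz, elev] at pe0
    rcases hcmp with hle | hle
    · exact col_prefix_eq H hle pe0'
    · exact (col_prefix_eq H hle pe0).symm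
  have hctx : G.toColCtx = G'.toColCtx := ColCtx.ext er eg hz hWW
  have ha : G.a ≠ G'.a := by
    intro ha
    exact hne (ColGrp.ext er eg hz hWW elev el en er2 eg2 ha epot)
  -- adjacency in the high metric
  have hdu : S.dist (S.depth u) b' b ≤ 1 := by
    rw [H.valid.dist_symm]
    exact (H.valid.dist_anti b b' (H.valid.depth_mono huJ)).trans hd
  have hadj := col_adj_high H hW' hb'u hh' hdu
  rw [hctx, el] at P2
  have m0 := F0.mk2
  rw [hctx, el, er2, eg2] at m0
  have m0' := F0'.mk2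
  -- upper bound for the distance of the two witnesses
  have up : S.fd p dp G'.toColCtx (G'.l + 1) v0 v0' ≤ h + 1 + h' := by
    have t1 := col_fd_tri (S := S) p dp G'.toColCtx (G'.l + 1) v0 b v0'
    have t2 := col_fd_tri (S := S) p dp G'.toColCtx (G'.l + 1) b b' v0'
    have t3 := col_fd_symm (S := S) p dp G'.toColCtx (G'.l + 1) v0 b
    have t4 := col_fd_symm (S := S) p dp G'.toColCtx (G'.l + 1) b b'
    omega
  have hb2 := p.col_Hm_lt_b2
  rcases hcmp with hle | hle
  · -- `I0 ≤ J0`: the later witness is `(I0, v0)`, the earlier high winner is `G'.a`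
    have hmem : G'.a ∈ S.pres I0 := H.valid.pres_mono hle m0'.1
    have r1 : dh G'.r2 G'.a + 5 ≤ G'.g2 + S.fd p dp G'.toColCtx (G'.l + 1) G'.a v0 / p.b2 :=
      m0.2.2 G'.a hmem (Ne.symm ha)
    have r2 : dh G'.r2 G'.a = G'.g2 + S.fd p dp G'.toColCtx (G'.l + 1) G'.a v0' / p.b2 := m0'.2.1
    have gap := col_div_gap p.col_b2_pos
      (x := S.fd p dp G'.toColCtx (G'.l + 1) G'.a v0') (y := S.fd p dp G'.toColCtx (G'.l + 1) G'.a v0) (by omega)
    have t1 := col_fd_tri (S := S) p dp G'.toColCtx (G'.l + 1) G'.a v0' v0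
    have t2 := col_fd_symm (S := S) p dp G'.toColCtx (G'.l + 1) v0' v0
    omega
  · -- `J0 ≤ I0`: the later witness is `(J0, v0')`, the earlier high winner is `G.a`
    have hmem : G.a ∈ S.pres J0 := H.valid.pres_mono hle m0.1
    have r1 : dh G'.r2 G.a + 5 ≤ G'.g2 + S.fd p dp G'.toColCtx (G'.l + 1) G.a v0' / p.b2 :=
      m0'.2.2 G.a hmem ha
    have r2 : dh G'.r2 G.a = G'.g2 + S.fd p dp G'.toColCtx (G'.l + 1) G.a v0 / p.b2 := m0.2.1
    have gap := col_div_gap p.col_b2_pos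
      (x := S.fd p dp G'.toColCtx (G'.l + 1) G.a v0) (y := S.fd p dp G'.toColCtx (G'.l + 1) G.a v0') (by omega)
    have t1 := col_fd_tri (S := S) p dp G'.toColCtx (G'.l + 1) G.a v0 v0'
    omega

end Claimed.Agent.R258
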