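/-
Row 258, block [COLOR].  LEAF P-COL-SEP1 (`col_sep_z_ne`): Lemma historical-masks (3), distinct primary winners.  (proved: helper63)  (localization.tex l.486-528.)
Setting: `u ≤ J ≤ I`; `b ∈ mask G h I` with witness `(I0, v0)`, `I ≤ I0`; `b' ∈ mask G' h' J` with witness `(J0, v0')`, `J ≤ J0`; `G'` is used at `u` with centre `v'`;
`G.col p = G'.col p`; `dist (depth J) b b' ≤ 1`.  Let `su = depth u ≥ depth J ≥ depth I`.  Then `dist su b b' ≤ 1`, `b' ∈ mask G' h' u` (`col_mask_depth`).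
`col_col_inj` (ranges from `WitFacts.range`): `r, g, lev, l, n, r2, g2, pot` agree.   NO use of `G` below `I` is needed.

SEP1 (`z ≠ z'`).  `i = adm z`, `i' = adm z'`, `t = lev`.  `WitFacts.lev_eq` at `(I0,v0)` for `G` and at `(u,v')` for `G'`: `col_lev i (card (pres I0) - 1) = t = col_lev i' (card (pres u) - 1)`;
  `card (pres I0) ≤ card (pres u)`.  `col_lev_sep`: `i < col_pe i' t`.  `z ∈ pres I0 ⊆ pres u`, so `z ∈ W'` (`W_eq` at `(u,v')`), `z ∈ W' \ {z'}`.
  True rival bound for `G'` at `u` (`col_true_rival'`) applied to the rival `z`:  `b1 δ z - dist su z b' ≤ T_{l+1} - 11`, and `2 T_{l+1} ≤ (2g-5) b1` (`col_Tl_le`, `l+1 ≤ d0`).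
  First predicate of `Pad` for `b` (depth `depth I`, persists to `su` by dist_anti) + triangle: `g b1 + dist su z b' ≤ b1 δ z + b1 + h + 1`.
  Together: `(g-1) b1 - h - 1 ≤ (g - 5/2) b1 - 11`, i.e. `3 b1 ≤ 2 h - 20`, absurd (`col_Hm_lt_b1`).
-/
import Claimed.Agent.R258.Color.MaskC
import Claimed.Agent.R258.Color.Colour

set_option autoImplicit false
open Classical

namespace Claimed.Agent.R258
variable {C V : Type*} [PartialOrder C] {S : ColSys C V} {p : ColPar} {D : ℕ} {dp dh : ℕ → V → ℕ}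

theorem col_sep_z_ne (H : S.Std p D dp dh) {G G' : ColGrp V} (hcol : G.col p = G'.col p) (hz : G.z ≠ G'.z)
    {I J u : C} (hJI : J ≤ I) (huJ : u ≤ J) (hu : S.use p dp dh G' u) {b b' : V} {h h' : ℕ}
    (hb : b ∈ S.mask p dp dh G h I) (hb' : b' ∈ S.mask p dp dh G' h' J) (hh : h ≤ p.Hm) (hh' : h' ≤ p.Hm)
    (hd : S.dist (S.depth J) b b' ≤ 1) : False := by
  obtain ⟨v', hW'⟩ := hu
  have F' := col_wit_facts H hW'
  rw [col_mem_mask_iff] at hb
  obtain ⟨_, I0, v0, hI0, hW0, P1, _, _⟩ := hb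
  have F0 := col_wit_facts H hW0
  obtain ⟨er, eg, elev, _, _, _, _, _⟩ := col_col_inj F0.range F'.range hcol
  have hb'u : b' ∈ S.mask p dp dh G' h' u := col_mask_depth H G' h' huJ hb'
  have huI : u ≤ I := huJ.trans hJI
  have huI0 : u ≤ I0 := huI.trans hI0
  have hcard : (S.pres I0).card ≤ (S.pres u).card := Finset.card_le_card (H.valid.pres_mono huI0)
  -- the earlier winner lies in the later frozen prefix
  have hsep : S.adm G.z < col_pe (S.adm G'.z) G'.lev :=
    col_lev_sep (col_adm_le H F0.z_mem) (by omega) (col_adm_le H F'.z_mem)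
      (by rw [← F0.lev_eq, elev]) F'.lev_eq.symm
  have hzW : G.z ∈ G'.W.erase G'.z := by
    rw [Finset.mem_erase]
    refine ⟨hz, ?_⟩
    rw [F'.W_eq, Finset.mem_filter]
    exact ⟨H.valid.pres_mono huI0 F0.z_mem, hsep⟩
  have hr := col_true_rival' H hW' hb'u hh' G.z hzW
  have hr' : ((p.b1 * dp G'.r G.z : ℕ) : ℤ) - (S.dist (S.depth u) G.z b' : ℤ) ≤ p.Tl G'.g (G'.l + 1) - 11 := hr
  have hT := p.col_Tl_le G'.g (l := G'.l + 1) F'.range.l
  have d1 := H.valid.dist_tri (S.depth u) G.z b b'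
  have d2 := H.valid.dist_anti G.z b (H.valid.depth_mono huI)
  have d3 := H.valid.dist_anti b b' (H.valid.depth_mono huJ)
  have hHm := p.col_Hm_lt_b1 H.d0_ge
  rw [er, eg] at P1
  have P1' : ((G'.g * p.b1 + S.dist (S.depth I) G.z b : ℕ) : ℤ) ≤ ((p.b1 * dp G'.r G.z + p.b1 + h : ℕ) : ℤ) := by
    exact_mod_cast P1
  have d4 : (S.dist (S.depth u) G.z b' : ℤ) ≤ (S.dist (S.depth I) G.z b : ℤ) + 1 := by
    have : S.dist (S.depth u) G.z b' ≤ S.dist (S.depth I) G.z b + 1 := by omega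
    exact_mod_cast this
  have hh2 : (h : ℤ) + 10 < p.b1 := by
    have : h + 10 < p.b1 := by omega
    exact_mod_cast this
  push_cast at P1' hr'
  nlinarith

end Claimed.Agent.R258
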