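/-
Row 258, block [COLOR].  LEAF P-COL-SIT (`col_sit1`, `col_sit2`): polynomially many situations on a path.  (localization.tex l.357-368.)  (proved: helper63)
`SitBound` is defined in Choose.lean.
`col_sit1`: fix `I`.  For `v ∈ pres I` apply `col_count_of_potential` to `A = {I' | I ≤ I' ∧ v ∈ pres I'}`,
  `σ I' = (pres I', fun w => if w ∈ pres I' then q1 I' v w else 0)`, `Ψ I' = ∑_{w ∈ pres I'} (cap + 1 - q1 I' v w) ≤ D (cap+1)`.
  Two cells of `A` are comparable (`Valid.chain`), say `J' ≤ I'`: `pres I' ⊆ pres J'`, `q1 J' v w ≤ q1 I' v w ≤ cap`; every term is `≥ 1`; so `Ψ I' ≤ Ψ J'` and equality forces `pres I' = pres J'` and equal offsets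
  (`Finset.sum_le_sum_of_subset`, `Finset.sum_eq_sum_iff_of_le`; or: strict inequality if something changes).  Union over `v ∈ pres I` (`pres I' ⊆ pres I`), `Finset.card_biUnion_le`.
`col_sit2`: the same with `σ I' = (pres I', fun w => if w ∈ pres I' then q2 I' v w else 0)` and `Ψ I' = pot123 I' v * (D+1) + card (pres I')`: by `col_pot123_mono` + `col_lex`, equal `Ψ` on comparable cells gives equal
  `ctx`, `lsel` (so `q2 I' v = q2 J' v` by unfolding `ColSys.q2`) and equal cardinalities, hence `pres I' = pres J'` (`Finset.eq_of_subset_of_card_le`).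
-/
import Claimed.Agent.R258.Color.Choose
import Claimed.Agent.R258.Pack002

set_option autoImplicit false
open Classical

namespace Claimed.Agent.R258
variable {C V : Type*} [PartialOrder C]

/-- situations which are determined, on comparable cells, by a bounded potential -/
theorem col_sitBound_of_potential {S : ColSys C V} {D : ℕ} (hS : S.Valid D) (q : C → V → V → ℕ) (Ψ : C → V → ℕ)
    (N : ℕ) (I : C) (hΨ : ∀ I' v, I ≤ I' → v ∈ S.pres I' → Ψ I' v < N)
    (heq : ∀ I' J' v, I ≤ J' → J' ≤ I' → v ∈ S.pres I' → Ψ I' v = Ψ J' v →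
      S.pres I' = S.pres J' ∧ ∀ w ∈ S.pres I', q I' v w = q J' v w) :
    S.SitBound q (D * N) I := by
  have hone : ∀ v : V, ∃ F : Finset (Finset V × (V → ℕ)), F.card ≤ N ∧
      ∀ I' ∈ {I' : C | I ≤ I' ∧ v ∈ S.pres I'},
        ((S.pres I', fun w => if w ∈ S.pres I' then q I' v w else 0) : Finset V × (V → ℕ)) ∈ F := by
    intro v
    apply col_count_of_potential {I' : C | I ≤ I' ∧ v ∈ S.pres I'}
      (fun I' => ((S.pres I', fun w => if w ∈ S.pres I' then q I' v w else 0) : Finset V × (V → ℕ)))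
      (fun I' => Ψ I' v) N
    · rintro I' ⟨h1, h2⟩
      exact hΨ I' v h1 h2
    · have key : ∀ I' J' : C, I ≤ J' → J' ≤ I' → v ∈ S.pres I' → Ψ I' v = Ψ J' v →
          ((S.pres I', fun w => if w ∈ S.pres I' then q I' v w else 0) : Finset V × (V → ℕ))
            = (S.pres J', fun w => if w ∈ S.pres J' then q J' v w else 0) := by
        intro I' J' h1 h2 h3 h4
        obtain ⟨e1, e2⟩ := heq I' J' v h1 h2 h3 h4
        apply Prod.ext
        · exact e1
        · funext w
          show (if w ∈ S.pres I' then q I' v w else 0) = if w ∈ S.pres J' then q J' v w else 0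
          rw [← e1]
          by_cases hw : w ∈ S.pres I'
          · rw [if_pos hw, if_pos hw, e2 w hw]
          · rw [if_neg hw, if_neg hw]
      rintro x ⟨hx1, hx2⟩ y ⟨hy1, hy2⟩ he
      rcases hS.chain hx1 hy1 with hle | hle
      · exact (key y x hx1 hle hy2 he.symm).symm
      · exact key x y hy1 hle hx2 he
  choose F hF hmem using hone
  refine ⟨(S.pres I).biUnion F, ?_, ?_⟩
  · calc ((S.pres I).biUnion F).card ≤ ∑ v ∈ S.pres I, (F v).card := Finset.card_biUnion_le
      _ ≤ ∑ _v ∈ S.pres I, N := Finset.sum_le_sum (fun v _ => hF v)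
      _ = (S.pres I).card * N := by rw [Finset.sum_const, smul_eq_mul]
      _ ≤ D * N := Nat.mul_le_mul_right _ (hS.card_le I)
  · intro I' hI' v hv
    refine ⟨_, Finset.mem_biUnion.mpr ⟨v, hS.pres_mono hI' hv, hmem v I' ⟨hI', hv⟩⟩, rfl, ?_⟩
    intro w hw
    show (if w ∈ S.pres I' then q I' v w else 0) = q I' v w
    rw [if_pos hw]

theorem col_sit1 {S : ColSys C V} {D : ℕ} (hS : S.Valid D) (p : ColPar) (cap : ℕ)
    (hK : ∀ s v w, S.dist s v w / p.b1 ≤ cap) (I : C) :
    S.SitBound (S.q1 p) (D * (D * (cap + 1) + 1)) I := by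
  apply col_sitBound_of_potential hS (S.q1 p) (fun I' v => ∑ w ∈ S.pres I', (cap + 1 - S.q1 p I' v w))
    (D * (cap + 1) + 1) I
  · intro I' v _ _
    have h1 : ∑ w ∈ S.pres I', (cap + 1 - S.q1 p I' v w) ≤ ∑ _w ∈ S.pres I', (cap + 1) :=
      Finset.sum_le_sum (fun w _ => Nat.sub_le _ _)
    rw [Finset.sum_const, smul_eq_mul] at h1
    have h2 : (S.pres I').card * (cap + 1) ≤ D * (cap + 1) := Nat.mul_le_mul_right _ (hS.card_le I')
    show ∑ w ∈ S.pres I', (cap + 1 - S.q1 p I' v w) < D * (cap + 1) + 1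
    omega
  · intro I' J' v _ hJI _ he
    have he' : ∑ w ∈ S.pres I', (cap + 1 - S.q1 p I' v w) = ∑ w ∈ S.pres J', (cap + 1 - S.q1 p J' v w) := he
    have hZ : S.pres I' ⊆ S.pres J' := hS.pres_mono hJI
    have hq : ∀ w, S.q1 p J' v w ≤ S.q1 p I' v w := fun w =>
      Nat.div_le_div_right (hS.dist_anti w v (hS.depth_mono hJI))
    have hcapI : ∀ w, S.q1 p I' v w ≤ cap := fun w => hK _ _ _
    have hcapJ : ∀ w, S.q1 p J' v w ≤ cap := fun w => hK _ _ _
    have hle1 : ∀ w ∈ S.pres I', cap + 1 - S.q1 p I' v w ≤ cap + 1 - S.q1 p J' v w := fun w _ => by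
      have := hq w
      omega
    have s1 : ∑ w ∈ S.pres I', (cap + 1 - S.q1 p I' v w) ≤ ∑ w ∈ S.pres I', (cap + 1 - S.q1 p J' v w) :=
      Finset.sum_le_sum hle1
    have s2 : ∑ w ∈ S.pres J' \ S.pres I', (cap + 1 - S.q1 p J' v w)
        + ∑ w ∈ S.pres I', (cap + 1 - S.q1 p J' v w) = ∑ w ∈ S.pres J', (cap + 1 - S.q1 p J' v w) :=
      Finset.sum_sdiff hZ
    have s3 : ∑ w ∈ S.pres J' \ S.pres I', (cap + 1 - S.q1 p J' v w) = 0 := by omega
    have s4 : ∑ w ∈ S.pres I', (cap + 1 - S.q1 p I' v w) = ∑ w ∈ S.pres I', (cap + 1 - S.q1 p J' v w) := by omega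
    have hempty : S.pres J' \ S.pres I' = ∅ := by
      by_contra hne
      obtain ⟨w, hw⟩ := Finset.nonempty_iff_ne_empty.mpr hne
      have := (Finset.sum_eq_zero_iff.mp s3) w hw
      have := hcapJ w
      omega
    refine ⟨Finset.Subset.antisymm hZ (Finset.sdiff_eq_empty_iff_subset.mp hempty), ?_⟩
    intro w hw
    have := (Finset.sum_eq_sum_iff_of_le hle1).mp s4 w hw
    have := hcapI w
    have := hcapJ w
    omega

theorem col_sit2 {S : ColSys C V} {p : ColPar} {D : ℕ} {dp dh : ℕ → V → ℕ} (H : S.Std p D dp dh) (I : C) :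
    S.SitBound (S.q2 p dp) (D * (p.K1 * p.K2 * p.K3 * (D + 1))) I := by
  have hcard : ∀ I', (S.pres I').card < D + 1 := fun I' => Nat.lt_succ_of_le (H.valid.card_le I')
  apply col_sitBound_of_potential H.valid (S.q2 p dp)
    (fun I' v => S.pot123 p dp I' v * (D + 1) + (S.pres I').card) (p.K1 * p.K2 * p.K3 * (D + 1)) I
  · intro I' v _ hv
    exact col_pair_lt (col_pot123_lt H hv).2.2.2 (hcard I')
  · intro I' J' v _ hJI hv he
    have hZ : S.pres I' ⊆ S.pres J' := H.valid.pres_mono hJI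
    obtain ⟨hm, hdat⟩ := col_pot123_mono H hJI hv
    obtain ⟨e1, e2⟩ := (col_lex (hcard I') (hcard J') hm (fun _ => Finset.card_le_card hZ)).2 he
    obtain ⟨_, hc, hl, _⟩ := hdat e1
    refine ⟨Finset.eq_of_subset_of_card_le hZ e2.ge, ?_⟩
    intro w _
    unfold ColSys.q2
    rw [hc, hl]

end Claimed.Agent.R258
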