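/-
Row 258, block [COLOR].  LEAF P-COL-NUM: the parameters of the paper, `d0 = ⌈1000 log (2 D)⌉`.  Real-number numerics only.  (localization.tex l.224, l.366-371.)

Let `x = d0`.  `Nat.le_ceil`: `1000 * log (2 D) ≤ x`, i.e. `2 D ≤ exp (x / 1000)` (`Real.log_le_iff_le_exp`/`Real.le_exp_log`).  For `D ≥ 1`: `log (2 D) ≥ log 2 > 0.69` (`Real.log_two_gt_d9`), so `x ≥ 694`.
`loc_params_adm`:
 * `D_lt`: `exp (1/3) ≤ 3/2` because `exp 1 < 2.7182818286 < 27/8` (`Real.exp_one_lt_d9`; `exp 1 = (exp (1/3))^3`), so `(3/2)^(x-1) ≥ exp ((x-1)/3) ≥ exp (x/1000) ≥ 2 D > D`;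
   cast to `ℕ`: `D * 2^(x-1) < 3^(x-1)` is `(D:ℝ) < (3/2)^(x-1)` multiplied by `2^(x-1)` (`div_pow`, `lt_div_iff₀`, `Nat.cast_lt`/`exact_mod_cast`).
 * `D_le`: `exp (1/2) ≤ 2`, so `2^x ≥ exp (x/2) = (exp (x/1000))^500 ≥ (2 D)^500 ≥ (2 D)^7 ≥ 64 D`  (or: `2^x ≥ 2^6 * 2^(x-6)` and `2^(x-6) ≥ exp ((x-6)/2) ≥ exp (x/1000) ≥ D`).
`loc_fail_small`: `fail = (N1 + N2) (63/64)^x`, `N1 = D (D (x+7) + 1)`, `N2 = D (K1 K2 K3 (D+1))`, `K1 = x (2x+1) + 1`, `K2 = x+1`, `K3 = x^2+1`  (unfold `LocParams.fail`, `ColPar.N1`, `ColPar.N2`, `LocParams.colPar`;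
  `P` does not occur).  For `D ≥ 1`, `x ≥ 10`: `N1 + N2 ≤ 20 D^2 x^5`.   `(63/64)^x ≤ exp (-x/64)` (`1 - t ≤ exp (-t)`: `Real.one_sub_le_exp_neg`/`Real.add_one_le_exp`), `D^2 ≤ exp (x/500)`.
  So `fail ≤ 20 x^5 exp (-x/100)` (`1/64 - 1/500 ≥ 1/100`), which tends to `0`: e.g. `exp (x/100) ≥ (x/100)^6 / 720` (`Real.pow_div_factorial_le_exp`) gives `fail ≤ 20 * 720 * 100^6 / x`;
  and `x ≥ 1000 log (2 D) ≥ M` as soon as `D ≥ exp M` (take `D0 = ⌈exp (20 * 720 * 100^6 / ε)⌉₊ + 1`).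
-/
import Claimed.Agent.R258.Pack022

set_option autoImplicit false

namespace Claimed.Agent.R258

/-- the parameters of the paper -/
noncomputable def loc_params (D P : ℕ) : LocParams := ⟨D, P, ⌈1000 * Real.log (2 * D)⌉₊⟩

theorem col_num_ceil {D : ℕ} (hD : 1 ≤ D) :
    (2 * D : ℝ) ≤ Real.exp ((⌈1000 * Real.log (2 * D)⌉₊ : ℝ) / 1000) := by
  have h1 : 1000 * Real.log (2 * D) ≤ (⌈1000 * Real.log (2 * D)⌉₊ : ℝ) := Nat.le_ceil _
  have hpos : (0 : ℝ) < 2 * D := by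
    have : (1 : ℝ) ≤ D := by exact_mod_cast hD
    linarith
  rw [← Real.log_le_iff_le_exp hpos]
  linarith

theorem col_num_ge {D : ℕ} (hD : 1 ≤ D) : 694 ≤ ⌈1000 * Real.log (2 * D)⌉₊ := by
  have h1 : 1000 * Real.log (2 * D) ≤ (⌈1000 * Real.log (2 * D)⌉₊ : ℝ) := Nat.le_ceil _
  have h2 : Real.log 2 ≤ Real.log (2 * D) := Real.log_le_log (by norm_num) (by
    have : (1 : ℝ) ≤ D := by exact_mod_cast hD
    linarith)
  have h3 := Real.log_two_gt_d9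
  by_contra hlt
  have h4 : ⌈1000 * Real.log (2 * D)⌉₊ ≤ 693 := by omega
  have h5 : (⌈1000 * Real.log (2 * D)⌉₊ : ℝ) ≤ 693 := by exact_mod_cast h4
  linarith

theorem col_num_exp_mul (t : ℝ) : Real.exp t * (1 - t) ≤ 1 := by
  have h := Real.one_sub_le_exp_neg t
  rw [Real.exp_neg] at h
  have hp := Real.exp_pos t
  calc Real.exp t * (1 - t) ≤ Real.exp t * (Real.exp t)⁻¹ := mul_le_mul_of_nonneg_left h hp.le
    _ = 1 := mul_inv_cancel₀ hp.ne'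

theorem col_num_D_lt {D x : ℕ} (hx : 694 ≤ x) (hD2 : (2 * D : ℝ) ≤ Real.exp ((x : ℝ) / 1000)) (hD : 1 ≤ D) :
    D * 2 ^ (x - 1) < 3 ^ (x - 1) := by
  obtain ⟨m, rfl⟩ : ∃ m, x = m + 1 := ⟨x - 1, by omega⟩
  rw [Nat.add_sub_cancel]
  have h13 : Real.exp (1 / 3) ≤ 3 / 2 := by
    have := col_num_exp_mul (1 / 3)
    linarith
  have h1 : Real.exp ((m : ℝ) * (1 / 3)) ≤ (3 / 2) ^ m := by
    rw [Real.exp_nat_mul]
    exact pow_le_pow_left₀ (Real.exp_pos _).le h13 m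
  have h2 : Real.exp (((m + 1 : ℕ) : ℝ) / 1000) ≤ Real.exp ((m : ℝ) * (1 / 3)) := by
    apply Real.exp_le_exp.mpr
    have : (693 : ℝ) ≤ m := by exact_mod_cast (by omega : 693 ≤ m)
    push_cast
    linarith
  have h3 : (D : ℝ) < (3 / 2) ^ m := by
    have : (1 : ℝ) ≤ D := by exact_mod_cast hD
    linarith
  rw [div_pow, lt_div_iff₀ (by positivity)] at h3
  exact_mod_cast h3

theorem col_num_D_le {D x : ℕ} (hx : 694 ≤ x) (hD2 : (2 * D : ℝ) ≤ Real.exp ((x : ℝ) / 1000)) :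
    64 * D ≤ 2 ^ x := by
  obtain ⟨m, rfl⟩ : ∃ m, x = m + 6 := ⟨x - 6, by omega⟩
  have h12 : Real.exp (1 / 2) ≤ 2 := by
    have := col_num_exp_mul (1 / 2)
    linarith
  have h1 : Real.exp ((m : ℝ) * (1 / 2)) ≤ 2 ^ m := by
    rw [Real.exp_nat_mul]
    exact pow_le_pow_left₀ (Real.exp_pos _).le h12 m
  have h2 : Real.exp (((m + 6 : ℕ) : ℝ) / 1000) ≤ Real.exp ((m : ℝ) * (1 / 2)) := by
    apply Real.exp_le_exp.mpr
    have : (688 : ℝ) ≤ m := by exact_mod_cast (by omega : 688 ≤ m)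
    push_cast
    linarith
  have h3 : (64 : ℝ) * D ≤ 2 ^ (m + 6) := by
    rw [pow_add]
    norm_num
    linarith
  exact_mod_cast h3

theorem loc_params_adm {D : ℕ} (hD : 1 ≤ D) (P : ℕ) : (loc_params D P).Adm where
  d0_ge := le_trans (by norm_num) (col_num_ge hD)
  D_pos := hD
  D_lt := col_num_D_lt (col_num_ge hD) (col_num_ceil hD) hD
  D_le := col_num_D_le (col_num_ge hD) (col_num_ceil hD)

theorem col_num_count {D x : ℕ} (hD : 1 ≤ D) (hx : 10 ≤ x) :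
    D * (D * (x + 6 + 1) + 1) + D * ((x * (2 * x + 1) + 1) * (x + 1) * (x * x + 1) * (D + 1))
      ≤ 25 * D ^ 2 * x ^ 5 := by
  have hK1 : x * (2 * x + 1) + 1 ≤ 3 * x ^ 2 := by nlinarith
  have hK2 : x + 1 ≤ 2 * x := by omega
  have hK3 : x * x + 1 ≤ 2 * x ^ 2 := by nlinarith
  have hD1 : D + 1 ≤ 2 * D := by omega
  have hx4 : 2 ≤ x ^ 4 := le_trans (by omega) (Nat.le_self_pow (by norm_num) x)
  have hx5 : x + 8 ≤ x ^ 5 := by
    have : x ^ 5 = x ^ 4 * x := by ring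
    rw [this]
    nlinarith
  have h1 : D * (x + 6 + 1) + 1 ≤ D * x ^ 5 := by
    calc D * (x + 6 + 1) + 1 ≤ D * (x + 6 + 1) + D := by omega
      _ = D * (x + 8) := by ring
      _ ≤ D * x ^ 5 := Nat.mul_le_mul_left D hx5
  have h2 : (x * (2 * x + 1) + 1) * (x + 1) * (x * x + 1) * (D + 1)
      ≤ (3 * x ^ 2) * (2 * x) * (2 * x ^ 2) * (2 * D) :=
    Nat.mul_le_mul (Nat.mul_le_mul (Nat.mul_le_mul hK1 hK2) hK3) hD1
  calc D * (D * (x + 6 + 1) + 1) + D * ((x * (2 * x + 1) + 1) * (x + 1) * (x * x + 1) * (D + 1))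
      ≤ D * (D * x ^ 5) + D * ((3 * x ^ 2) * (2 * x) * (2 * x ^ 2) * (2 * D)) :=
        Nat.add_le_add (Nat.mul_le_mul_left D h1) (Nat.mul_le_mul_left D h2)
    _ = 25 * D ^ 2 * x ^ 5 := by ring

theorem col_num_fail_le {D x N : ℕ} (hx : 694 ≤ x) (hD2 : (2 * D : ℝ) ≤ Real.exp ((x : ℝ) / 1000))
    (hN : N ≤ 25 * D ^ 2 * x ^ 5) :
    (N : ℝ) * (63 / 64 : ℝ) ^ x ≤ 18000000000000000 / (x : ℝ) := by
  have hy : (0 : ℝ) < x := by exact_mod_cast (by omega : 0 < x)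
  have hNr : (N : ℝ) ≤ 25 * (D : ℝ) ^ 2 * (x : ℝ) ^ 5 := by exact_mod_cast hN
  have hD0 : (0 : ℝ) ≤ D := Nat.cast_nonneg D
  have hb : (63 / 64 : ℝ) ^ x ≤ Real.exp ((x : ℝ) * (-(1 / 64))) := by
    rw [Real.exp_nat_mul]
    apply pow_le_pow_left₀ (by norm_num)
    have := Real.one_sub_le_exp_neg (1 / 64)
    linarith
  have hc : (D : ℝ) ^ 2 ≤ Real.exp ((x : ℝ) / 1000 + (x : ℝ) / 1000) := by
    rw [Real.exp_add, sq]
    have : (D : ℝ) ≤ Real.exp ((x : ℝ) / 1000) := by linarith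
    exact mul_le_mul this this hD0 (Real.exp_pos _).le
  have he : ((x : ℝ) / 100) ^ 6 / (Nat.factorial 6 : ℝ) ≤ Real.exp ((x : ℝ) / 100) :=
    Real.pow_div_factorial_le_exp _ (by positivity) 6
  have hf : (Nat.factorial 6 : ℝ) = 720 := by norm_num [Nat.factorial]
  rw [hf] at he
  have hE := Real.exp_pos ((x : ℝ) / 100)
  have hd : Real.exp ((x : ℝ) / 1000 + (x : ℝ) / 1000) * Real.exp ((x : ℝ) * (-(1 / 64)))
      ≤ (Real.exp ((x : ℝ) / 100))⁻¹ := by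
    rw [← Real.exp_add, ← Real.exp_neg]
    apply Real.exp_le_exp.mpr
    linarith
  have h63 : (0 : ℝ) ≤ (63 / 64 : ℝ) ^ x := by positivity
  calc (N : ℝ) * (63 / 64 : ℝ) ^ x
      ≤ (25 * (D : ℝ) ^ 2 * (x : ℝ) ^ 5) * (63 / 64 : ℝ) ^ x := mul_le_mul_of_nonneg_right hNr h63
    _ ≤ (25 * Real.exp ((x : ℝ) / 1000 + (x : ℝ) / 1000) * (x : ℝ) ^ 5) * Real.exp ((x : ℝ) * (-(1 / 64))) := by
        apply mul_le_mul _ hb h63 (by positivity)
        apply mul_le_mul_of_nonneg_right _ (by positivity)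
        apply mul_le_mul_of_nonneg_left hc (by norm_num)
    _ = 25 * (x : ℝ) ^ 5 * (Real.exp ((x : ℝ) / 1000 + (x : ℝ) / 1000) * Real.exp ((x : ℝ) * (-(1 / 64)))) := by
        ring
    _ ≤ 25 * (x : ℝ) ^ 5 * (Real.exp ((x : ℝ) / 100))⁻¹ := mul_le_mul_of_nonneg_left hd (by positivity)
    _ ≤ 18000000000000000 / (x : ℝ) := by
        rw [le_div_iff₀ hy]
        have h1 : 25 * (x : ℝ) ^ 6 ≤ 18000000000000000 * Real.exp ((x : ℝ) / 100) := by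
          have : ((x : ℝ) / 100) ^ 6 / 720 = (x : ℝ) ^ 6 / 720000000000000 := by
            rw [div_pow]
            norm_num
            ring
          rw [this] at he
          linarith
        calc 25 * (x : ℝ) ^ 5 * (Real.exp ((x : ℝ) / 100))⁻¹ * (x : ℝ)
            = (25 * (x : ℝ) ^ 6) * (Real.exp ((x : ℝ) / 100))⁻¹ := by ring
          _ ≤ (18000000000000000 * Real.exp ((x : ℝ) / 100)) * (Real.exp ((x : ℝ) / 100))⁻¹ :=
              mul_le_mul_of_nonneg_right h1 (inv_nonneg.mpr hE.le)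
          _ = 18000000000000000 := by
              rw [mul_assoc, mul_inv_cancel₀ hE.ne', mul_one]

/-- the failure probability tends to zero with `D` -/
theorem loc_fail_small {ε : ℝ} (hε : 0 < ε) : ∃ D0 : ℕ, ∀ D P : ℕ, D0 ≤ D → (loc_params D P).fail ≤ ε := by
  refine ⟨⌈Real.exp (18000000000000000 / ε)⌉₊ + 1, fun D P hD0 => ?_⟩
  have hD : 1 ≤ D := by omega
  have hDr : (1 : ℝ) ≤ D := by exact_mod_cast hD
  have hDe : Real.exp (18000000000000000 / ε) ≤ D :=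
    le_trans (Nat.le_ceil _) (by exact_mod_cast (by omega : ⌈Real.exp (18000000000000000 / ε)⌉₊ ≤ D))
  have hlog : 18000000000000000 / ε ≤ Real.log D := (Real.le_log_iff_exp_le (by linarith)).mpr hDe
  have hlog2 : Real.log D ≤ Real.log (2 * D) := Real.log_le_log (by linarith) (by linarith)
  have hlog0 : 0 ≤ Real.log (2 * D) := Real.log_nonneg (by linarith)
  have h1 : 1000 * Real.log (2 * D) ≤ (⌈1000 * Real.log (2 * D)⌉₊ : ℝ) := Nat.le_ceil _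
  have hge := col_num_ge hD
  have hx : 18000000000000000 / ε ≤ (⌈1000 * Real.log (2 * D)⌉₊ : ℝ) := by linarith
  have hxpos : (0 : ℝ) < (⌈1000 * Real.log (2 * D)⌉₊ : ℝ) := by
    exact_mod_cast (by omega : 0 < ⌈1000 * Real.log (2 * D)⌉₊)
  have hmain := col_num_fail_le hge (col_num_ceil hD) (col_num_count hD (le_trans (by norm_num) hge))
  calc (loc_params D P).fail ≤ 18000000000000000 / (⌈1000 * Real.log (2 * D)⌉₊ : ℝ) := hmain
    _ ≤ ε := by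
        rw [div_le_iff₀ hxpos]
        have := (div_le_iff₀ hε).mp hx
        linarith

end Claimed.Agent.R258
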