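/-
Row 258, block [COLOR].  LEAF P-COL-PROB1 (this file; proved: helper63).  [P-COL-PROB2 = Prob2.lean: `col_rounds_prob`, `col_prob_space`.]
Finite probability: truncated geometric delays.  (localization.tex l.346-356; self-contained here, NO measure theory: weighted finite sums.)

`col_gam d0 n` = P(delay = n): `2^-(n+1)` for `n < d0`, `2^-d0` for `n = d0`.  One round on a finite index type `ι`: outcomes `col_Om1 ι d0 = piFinset (range (d0+1))`,
weight `col_w1 d0 δ = ∏ i, col_gam d0 (δ i)`.   Product formula: `Finset.prod_univ_sum` (`∏ i, ∑ j ∈ t i, f i j = ∑ x ∈ piFinset t, ∏ i, f i (x i)`).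
For `col_w1_tail` apply it to `t j = if j = i then (range (d0+1)).filter (m ≤ ·) else range (d0+1)` (or split off the coordinate `i`).

`col_mark_prob` (P(marked) ≥ 1/64).  Let `A = {δ ∈ Om1 | ∀ z ∈ Z, δ z + 5 < d0}`.  Union bound + `col_w1_tail` (`m = d0 - 5`): `w1(Om1 \ A) ≤ card Z * 2^-(d0-5) ≤ 1/2` by `64 D ≤ 2^d0`.
  For `δ ∈ A` choose `w*(δ) ∈ Z` maximising the INTEGER score `(δ w : ℤ) - q w` (`Finset.exists_max_image`), and put `φ δ = Function.update δ w* (δ w* + 5)`.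
  The centre `c` (`q c = 0`) gives `δ w* - q w* ≥ δ c ≥ 0`; so `col_Mk Z (φ δ) q w* (δ w* - q w* + 5)`.   `φ δ ∈ Om1`.   `w1 (φ δ) = w1 δ / 32` (`col_gam_shift`, `Finset.prod_update_of_mem`).
  `φ` is injective on `A`: if `φ δ = φ δ'` then the winners agree (`col_Mk_unique`), and then `δ = δ'`.
  So `w1(marked) ≥ ∑_{δ ∈ A} w1 (φ δ) = w1(A)/32 ≥ 1/64` (`Finset.sum_image`/`Finset.sum_le_sum_of_subset_of_nonneg`).
`col_rounds_prob`: `∑_{δ} ∏_r [¬ mk (δ r)] w1 (δ r) = ∏_r ∑_{x ∈ Om1} [¬ mk x] w1 x = (1 - P(mk))^d0 ≤ (63/64)^d0` (`Finset.prod_univ_sum` backwards; `Finset.sum_filter`).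
`col_prob_space`: `ι = {v // v ∈ verts}`; extension `E δ r v = if h : r < d0 ∧ v ∈ verts then δ ⟨r, h.1⟩ ⟨v, h.2⟩ else 0` is injective; `Om = image E`,
  `wt x = ∏ r ∈ range d0, ∏ v ∈ verts, col_gam d0 (x r v)`;  `col_mk Z (E δ r) q ↔ col_mk (Z.subtype _) (δ r) (q ∘ Subtype.val)` for `Z ⊆ verts`.
-/
import Claimed.Agent.R258.Pack002
import Claimed.Agent.R258.Color.Avg

set_option autoImplicit false
open Classical

namespace Claimed.Agent.R258

/-- truncated geometric distribution on `{0,…,d0}` -/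
noncomputable def col_gam (d0 n : ℕ) : ℝ := if n < d0 then (1 / 2) ^ (n + 1) else if n = d0 then (1 / 2) ^ d0 else 0

theorem col_gam_nonneg (d0 n : ℕ) : 0 ≤ col_gam d0 n := by
  unfold col_gam
  split_ifs <;> positivity

theorem col_gam_tail {d0 m : ℕ} (hm : m ≤ d0) :
    ∑ n ∈ (Finset.range (d0 + 1)).filter (fun n => m ≤ n), col_gam d0 n = (1 / 2) ^ m := by
  induction hm using Nat.decreasingInduction with
  | self =>
    have h : (Finset.range (d0 + 1)).filter (fun n => d0 ≤ n) = {d0} := by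
      ext n
      simp only [Finset.mem_filter, Finset.mem_range, Finset.mem_singleton]
      omega
    rw [h, Finset.sum_singleton]
    unfold col_gam
    simp
  | of_succ k hk ih =>
    have h : (Finset.range (d0 + 1)).filter (fun n => k ≤ n)
        = insert k ((Finset.range (d0 + 1)).filter (fun n => k + 1 ≤ n)) := by
      ext n
      simp only [Finset.mem_filter, Finset.mem_range, Finset.mem_insert]
      omega
    have hk' : k ∉ (Finset.range (d0 + 1)).filter (fun n => k + 1 ≤ n) := by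
      simp only [Finset.mem_filter, Finset.mem_range]
      omega
    rw [h, Finset.sum_insert hk', ih]
    have : col_gam d0 k = (1 / 2) ^ (k + 1) := by
      unfold col_gam
      rw [if_pos hk]
    rw [this]
    ring

theorem col_gam_sum (d0 : ℕ) : ∑ n ∈ Finset.range (d0 + 1), col_gam d0 n = 1 := by
  have h := col_gam_tail (Nat.zero_le d0)
  have h2 : (Finset.range (d0 + 1)).filter (fun n => 0 ≤ n) = Finset.range (d0 + 1) :=
    Finset.filter_true_of_mem (fun n _ => Nat.zero_le n)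
  rw [h2] at h
  simpa using h

theorem col_gam_shift {d0 n : ℕ} (h : n + 5 < d0) : col_gam d0 (n + 5) = col_gam d0 n / 32 := by
  unfold col_gam
  rw [if_pos h, if_pos (by omega)]
  ring

/-- the union bound, free of `Finset.filter` (no decidability instances in the statement) -/
theorem col_union_bound_set {Ω ι : Type*} (Om : Finset Ω) (wt : Ω → ℝ) (hwt : ∀ ω ∈ Om, 0 ≤ wt ω) (F : Finset ι)
    (E : ι → Ω → Prop) (κ : ℝ)
    (hE : ∀ i ∈ F, ∃ T : Finset Ω, (∀ ω, ω ∈ T ↔ ω ∈ Om ∧ E i ω) ∧ ∑ ω ∈ T, wt ω ≤ κ)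
    (S : Finset Ω) (hS : ∀ ω, ω ∈ S ↔ ω ∈ Om ∧ ∃ i ∈ F, E i ω) : ∑ ω ∈ S, wt ω ≤ F.card * κ := by
  have h := col_union_bound Om wt hwt F E κ (fun i hi => by
    obtain ⟨T, hT, hle⟩ := hE i hi
    have : Om.filter (E i) = T := by
      ext ω
      rw [Finset.mem_filter, hT]
    rw [this]
    exact hle)
  have : Om.filter (fun ω => ∃ i ∈ F, E i ω) = S := by
    ext ω
    rw [Finset.mem_filter, hS]
  rw [this] at h
  exact h

section OneRound
variable (ι : Type*) [Fintype ι]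

/-- outcomes of one round -/
noncomputable def col_Om1 (d0 : ℕ) : Finset (ι → ℕ) := Fintype.piFinset fun _ => Finset.range (d0 + 1)

variable {ι}

/-- weight of an outcome of one round -/
noncomputable def col_w1 (d0 : ℕ) (δ : ι → ℕ) : ℝ := ∏ i, col_gam d0 (δ i)

theorem col_w1_nonneg (d0 : ℕ) (δ : ι → ℕ) : 0 ≤ col_w1 d0 δ :=
  Finset.prod_nonneg (fun i _ => col_gam_nonneg d0 (δ i))

theorem col_w1_sum (d0 : ℕ) : ∑ δ ∈ col_Om1 ι d0, col_w1 d0 δ = 1 := by
  unfold col_Om1 col_w1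
  rw [← Finset.prod_univ_sum]
  simp [col_gam_sum]

theorem col_w1_tail {d0 m : ℕ} (hm : m ≤ d0) (i : ι) :
    ∑ δ ∈ (col_Om1 ι d0).filter (fun δ => m ≤ δ i), col_w1 d0 δ = (1 / 2) ^ m := by
  have hset : (col_Om1 ι d0).filter (fun δ => m ≤ δ i)
      = Fintype.piFinset (fun j => if j = i then (Finset.range (d0 + 1)).filter (fun n => m ≤ n)
          else Finset.range (d0 + 1)) := by
    ext δ
    simp only [col_Om1, Finset.mem_filter, Fintype.mem_piFinset]
    constructor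
    · rintro ⟨h1, h2⟩ j
      by_cases hj : j = i
      · subst hj
        rw [if_pos rfl, Finset.mem_filter]
        exact ⟨h1 j, h2⟩
      · rw [if_neg hj]
        exact h1 j
    · intro h
      refine ⟨fun j => ?_, ?_⟩
      · have := h j
        by_cases hj : j = i
        · rw [if_pos hj, Finset.mem_filter] at this
          exact this.1
        · rw [if_neg hj] at this
          exact this
      · have := h i
        rw [if_pos rfl, Finset.mem_filter] at this
        exact this.2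
  rw [hset]
  unfold col_w1
  rw [← Finset.prod_univ_sum, Finset.prod_eq_single i]
  · rw [if_pos rfl, col_gam_tail hm]
  · intro j _ hj
    rw [if_neg hj, col_gam_sum]
  · intro h
    exact absurd (Finset.mem_univ i) h

/-- a canonical maximiser of the integer score -/
noncomputable def col_ws (Z : Finset ι) (q : ι → ℕ) (c : ι) (δ : ι → ℕ) : ι :=
  if h : Z.Nonempty then (Finset.exists_max_image Z (fun w => (δ w : ℤ) - (q w : ℤ)) h).choose else c

theorem col_ws_spec {Z : Finset ι} {q : ι → ℕ} {c : ι} (hc : c ∈ Z) (δ : ι → ℕ) :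
    col_ws Z q c δ ∈ Z ∧ ∀ w ∈ Z, (δ w : ℤ) - (q w : ℤ) ≤ (δ (col_ws Z q c δ) : ℤ) - (q (col_ws Z q c δ) : ℤ) := by
  have h : Z.Nonempty := ⟨c, hc⟩
  unfold col_ws
  rw [dif_pos h]
  exact (Finset.exists_max_image Z (fun w => (δ w : ℤ) - (q w : ℤ)) h).choose_spec

/-- "increase the delay of the canonical winner by 5" -/
noncomputable def col_shift (Z : Finset ι) (q : ι → ℕ) (c : ι) (δ : ι → ℕ) : ι → ℕ :=
  Function.update δ (col_ws Z q c δ) (δ (col_ws Z q c δ) + 5)

theorem col_shift_Mk {Z : Finset ι} {q : ι → ℕ} {c : ι} (hc : c ∈ Z) (hqc : q c = 0) (δ : ι → ℕ) :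
    col_Mk Z (col_shift Z q c δ) q (col_ws Z q c δ)
      (δ (col_ws Z q c δ) - q (col_ws Z q c δ) + 5) := by
  obtain ⟨hmem, hmax⟩ := col_ws_spec (q := q) hc δ
  have hge : q (col_ws Z q c δ) ≤ δ (col_ws Z q c δ) := by
    have := hmax c hc
    rw [hqc] at this
    have h0 : (0 : ℤ) ≤ (δ c : ℤ) := by positivity
    have : (q (col_ws Z q c δ) : ℤ) ≤ (δ (col_ws Z q c δ) : ℤ) := by push_cast at this; linarith
    exact_mod_cast this
  refine ⟨hmem, ?_, ?_⟩
  · unfold col_shift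
    rw [Function.update_self]
    omega
  · intro w hw hne
    unfold col_shift
    rw [Function.update_of_ne hne]
    have := hmax w hw
    omega

theorem col_shift_inj {Z : Finset ι} {q : ι → ℕ} {c : ι} (hc : c ∈ Z) (hqc : q c = 0) {δ δ' : ι → ℕ}
    (h : col_shift Z q c δ = col_shift Z q c δ') : δ = δ' := by
  have m1 := col_shift_Mk hc hqc δ
  have m2 := col_shift_Mk hc hqc δ'
  rw [h] at m1
  have hw : col_ws Z q c δ = col_ws Z q c δ' := (col_Mk_unique m1 m2).1
  funext i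
  have hi := congrFun h i
  unfold col_shift at hi
  rw [← hw] at hi
  by_cases hiw : i = col_ws Z q c δ
  · subst hiw
    rw [Function.update_self, Function.update_self] at hi
    omega
  · rw [Function.update_of_ne hiw, Function.update_of_ne hiw] at hi
    exact hi

theorem col_shift_w1 {d0 : ℕ} {Z : Finset ι} {q : ι → ℕ} {c : ι} (δ : ι → ℕ)
    (h : δ (col_ws Z q c δ) + 5 < d0) : col_w1 d0 (col_shift Z q c δ) = col_w1 d0 δ / 32 := by
  unfold col_w1
  rw [← Finset.mul_prod_erase Finset.univ (fun i => col_gam d0 (col_shift Z q c δ i))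
      (Finset.mem_univ (col_ws Z q c δ)),
    ← Finset.mul_prod_erase Finset.univ (fun i => col_gam d0 (δ i)) (Finset.mem_univ (col_ws Z q c δ))]
  have h1 : col_shift Z q c δ (col_ws Z q c δ) = δ (col_ws Z q c δ) + 5 := by
    unfold col_shift
    rw [Function.update_self]
  have h2 : ∏ i ∈ Finset.univ.erase (col_ws Z q c δ), col_gam d0 (col_shift Z q c δ i)
      = ∏ i ∈ Finset.univ.erase (col_ws Z q c δ), col_gam d0 (δ i) := by
    apply Finset.prod_congr rfl
    intro i hi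
    unfold col_shift
    rw [Function.update_of_ne (Finset.ne_of_mem_erase hi)]
  rw [h1, h2, col_gam_shift h]
  ring

theorem col_mark_small {d0 D n : ℕ} (h64 : 64 * D ≤ 2 ^ d0) (hZ : n ≤ D) (hd0 : 6 ≤ d0) :
    (n : ℝ) * (1 / 2 : ℝ) ^ (d0 - 5) ≤ 1 / 2 := by
  obtain ⟨e, rfl⟩ : ∃ e, d0 = e + 5 := ⟨d0 - 5, by omega⟩
  have h1 : (2 : ℝ) ^ (e + 5) = 2 ^ e * 32 := by
    rw [pow_add]
    norm_num
  have h2 : (64 : ℝ) * D ≤ 2 ^ (e + 5) := by exact_mod_cast h64
  have h3 : (n : ℝ) ≤ D := by exact_mod_cast hZ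
  have h4 : (0 : ℝ) < 2 ^ e := by positivity
  rw [Nat.add_sub_cancel, one_div, inv_pow, ← div_eq_mul_inv, div_le_iff₀ h4]
  rw [h1] at h2
  linarith

/-- the good event: every competitor has room for the shift -/
noncomputable def col_good (d0 : ℕ) (Z : Finset ι) : Finset (ι → ℕ) :=
  (col_Om1 ι d0).filter (fun δ => ∀ z ∈ Z, δ z + 5 < d0)

theorem col_good_half {d0 D : ℕ} (h64 : 64 * D ≤ 2 ^ d0) (Z : Finset ι) (hZ : Z.card ≤ D) (hd0 : 6 ≤ d0) :
    (1 / 2 : ℝ) ≤ ∑ δ ∈ col_good d0 Z, col_w1 d0 δ := by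
  have hS : ∀ δ, δ ∈ (col_Om1 ι d0).filter (fun δ : ι → ℕ => ∃ z ∈ Z, d0 - 5 ≤ δ z)
      ↔ δ ∈ col_Om1 ι d0 ∧ ∃ z ∈ Z, d0 - 5 ≤ δ z := fun δ => Finset.mem_filter
  generalize (col_Om1 ι d0).filter (fun δ : ι → ℕ => ∃ z ∈ Z, d0 - 5 ≤ δ z) = S at hS
  have hAc : ∑ δ ∈ S, col_w1 d0 δ ≤ Z.card * (1 / 2 : ℝ) ^ (d0 - 5) :=
    col_union_bound_set (col_Om1 ι d0) (col_w1 d0) (fun δ _ => col_w1_nonneg d0 δ) Z
      (fun z δ => d0 - 5 ≤ δ z) ((1 / 2 : ℝ) ^ (d0 - 5))
      (fun z _ => ⟨_, fun δ => Finset.mem_filter, le_of_eq (col_w1_tail (by omega) z)⟩) S hS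
  have hsmall := col_mark_small h64 hZ hd0
  have hsplit : ∑ δ ∈ col_good d0 Z, col_w1 d0 δ + ∑ δ ∈ S, col_w1 d0 δ = 1 := by
    unfold col_good
    rw [← col_w1_sum (ι := ι) d0, ← Finset.sum_filter_add_sum_filter_not (col_Om1 ι d0)
      (fun δ => ∀ z ∈ Z, δ z + 5 < d0)]
    congr 1
    apply Finset.sum_congr _ (fun _ _ => rfl)
    ext δ
    rw [hS, Finset.mem_filter]
    apply and_congr_right
    intro _
    constructor
    · rintro ⟨z, hz, h⟩ hall
      have := hall z hz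
      omega
    · intro h
      by_contra hno
      apply h
      intro z hz
      by_contra hlt
      exact hno ⟨z, hz, by omega⟩
  linarith

theorem col_good_img {d0 : ℕ} {Z : Finset ι} {q : ι → ℕ} {c : ι} (hcZ : c ∈ Z) (hqc : q c = 0) :
    (col_good d0 Z).image (col_shift Z q c) ⊆ (col_Om1 ι d0).filter (fun δ => col_mk Z δ q) := by
  intro δ' hδ'
  obtain ⟨δ, hδ, rfl⟩ := Finset.mem_image.mp hδ'
  unfold col_good at hδ
  rw [Finset.mem_filter] at hδ
  obtain ⟨hδO, hδA⟩ := hδ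
  rw [Finset.mem_filter]
  refine ⟨?_, _, _, col_shift_Mk hcZ hqc δ⟩
  unfold col_Om1 at hδO ⊢
  rw [Fintype.mem_piFinset] at hδO ⊢
  intro i
  by_cases hi : i = col_ws Z q c δ
  · have h1 : col_shift Z q c δ i = δ (col_ws Z q c δ) + 5 := by
      unfold col_shift
      rw [hi, Function.update_self]
    rw [h1, Finset.mem_range]
    have := hδA _ (col_ws_spec (q := q) hcZ δ).1
    omega
  · have h1 : col_shift Z q c δ i = δ i := by
      unfold col_shift
      rw [Function.update_of_ne hi]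
    rw [h1]
    exact hδO i

/-- a fixed situation with a centre and at most `D` competitors is marked with probability `≥ 1/64` -/
theorem col_mark_prob {d0 D : ℕ} (h64 : 64 * D ≤ 2 ^ d0) (Z : Finset ι) (q : ι → ℕ) (hZ : Z.card ≤ D)
    (hc : ∃ c ∈ Z, q c = 0) :
    (1 / 64 : ℝ) ≤ ∑ δ ∈ (col_Om1 ι d0).filter (fun δ => col_mk Z δ q), col_w1 d0 δ := by
  obtain ⟨c, hcZ, hqc⟩ := hc
  have hD : 1 ≤ D := le_trans (Finset.card_pos.mpr ⟨c, hcZ⟩) hZ
  have hd0 : 6 ≤ d0 := by
    by_contra hlt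
    have h1 : 2 ^ d0 ≤ 2 ^ 5 := Nat.pow_le_pow_right (by omega) (by omega)
    have h2 : (2 : ℕ) ^ 5 = 32 := by norm_num
    omega
  have hAhalf := col_good_half h64 Z hZ hd0
  calc (1 / 64 : ℝ) ≤ (∑ δ ∈ col_good d0 Z, col_w1 d0 δ) / 32 := by linarith
    _ = ∑ δ ∈ col_good d0 Z, col_w1 d0 (col_shift Z q c δ) := by
        rw [Finset.sum_div]
        apply Finset.sum_congr rfl
        intro δ hδ
        unfold col_good at hδ
        rw [Finset.mem_filter] at hδ
        rw [col_shift_w1 δ (hδ.2 _ (col_ws_spec (q := q) hcZ δ).1)]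
    _ = ∑ δ' ∈ (col_good d0 Z).image (col_shift Z q c), col_w1 d0 δ' := by
        rw [Finset.sum_image]
        intro δ _ δ' _ h
        exact col_shift_inj hcZ hqc h
    _ ≤ ∑ δ ∈ (col_Om1 ι d0).filter (fun δ => col_mk Z δ q), col_w1 d0 δ :=
        Finset.sum_le_sum_of_subset_of_nonneg (col_good_img hcZ hqc) (fun δ _ _ => col_w1_nonneg d0 δ)

end OneRound

end Claimed.Agent.R258
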